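import Vale.Agent.P232.Endpoint.PsiDefs

/-!
The endpoint function is positive for `p ≤ 1/50` up to `w = 835/1000`: the line is below the
constant `q = w + π p`, and `∫ √(1 - q²/W²)` is bounded below in closed form.
-/

open MeasureTheory Set intervalIntegral Real

namespace Vale.Agent.P232.Endpoint

theorem intervalIntegrable_sqrt_one_sub {g : ℝ → ℝ} (hg : Measurable g) (h : ∀ t, 0 ≤ g t)
    (a b : ℝ) : IntervalIntegrable (fun t => √(1 - g t)) volume a b :=
  IntervalIntegrable.mono_fun (intervalIntegrable_const (c := (1 : ℝ)))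
    (by fun_prop) (ae_of_all _ fun t => by
      simpa [abs_of_nonneg (Real.sqrt_nonneg _)] using Real.sqrt_le_one.2 (sub_le_self _ (h t)))

theorem W2_of_le_one {t : ℝ} (h : t ≤ 1) : W2 t = t :=
  min_eq_left (le_min h (by linarith [Real.pi_gt_three]))

theorem W2_of_mid {t : ℝ} (h1 : 1 ≤ t) (h2 : t ≤ π - 1) : W2 t = 1 := by
  rw [W2, min_eq_left (by linarith : (1 : ℝ) ≤ π - t), min_eq_right h1]

theorem W2_symm (t : ℝ) : W2 (π - t) = W2 t := by
  rw [W2, W2, sub_sub_cancel, min_comm (1 : ℝ) t, min_comm (1 : ℝ) (π - t), ← min_assoc,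
    ← min_assoc, min_comm (π - t) t]

/-- The model integral, split at the kinks. -/
theorem integral_model {q : ℝ} (hq : q ^ 2 ≤ 1) :
    ∫ t in (q ^ 2)..(π - q ^ 2), √(1 - q ^ 2 / W2 t) =
      (π - 2) * √(1 - q ^ 2) + 2 * ∫ t in (q ^ 2)..1, √(1 - q ^ 2 / t) := by
  have hpi := Real.pi_gt_three
  set g : ℝ → ℝ := fun t => q ^ 2 / max (W2 t) 0 with hg
  have hm : Measurable g := by
    have hW : Measurable W2 := by unfold W2; fun_prop
    rw [hg]; fun_prop
  have hi := intervalIntegrable_sqrt_one_sub hm fun t => div_nonneg (sq_nonneg q) (le_max_right _ _)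
  have h0 : ∀ t ∈ Icc (q ^ 2) (π - q ^ 2), 0 ≤ W2 t := fun t ht =>
    le_min ((sq_nonneg q).trans ht.1) (le_min zero_le_one (by linarith [ht.2, sq_nonneg q]))
  have e : ∫ t in (q ^ 2)..(π - q ^ 2), √(1 - q ^ 2 / W2 t) =
      ∫ t in (q ^ 2)..(π - q ^ 2), √(1 - g t) := integral_congr fun t ht => by
    rw [uIcc_of_le (by linarith)] at ht
    simp [hg, max_eq_left (h0 t ht)]
  have e1 : ∫ t in (q ^ 2)..1, √(1 - g t) = ∫ t in (q ^ 2)..1, √(1 - q ^ 2 / t) :=
    integral_congr fun t ht => by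
      rw [uIcc_of_le hq] at ht
      simp [hg, W2_of_le_one ht.2, max_eq_left ((sq_nonneg q).trans ht.1)]
  have e2 : ∫ t in (1 : ℝ)..(π - 1), √(1 - g t) = (π - 2) * √(1 - q ^ 2) := by
    rw [integral_congr (g := fun _ => √(1 - q ^ 2)) fun t ht => by
      rw [uIcc_of_le (by linarith)] at ht
      simp [hg, W2_of_mid ht.1 ht.2]]
    rw [intervalIntegral.integral_const, smul_eq_mul]; ring
  have e3 : ∫ t in (π - 1)..(π - q ^ 2), √(1 - g t) = ∫ t in (q ^ 2)..1, √(1 - g t) := by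
    rw [← integral_comp_sub_left (fun t => √(1 - g t)) π]
    simp only [hg, W2_symm]
  rw [e, ← integral_add_adjacent_intervals (hi (q ^ 2) (π - 1)) (hi _ _),
    ← integral_add_adjacent_intervals (hi (q ^ 2) 1) (hi 1 _), e2, e3, e1]
  ring

theorem intervalIntegrable_ratio {q : ℝ} (hq0 : 0 < q) (hq : q ^ 2 ≤ 1) {f : ℝ → ℝ}
    (hf : ContinuousOn f (Ioi 0)) : IntervalIntegrable f volume (q ^ 2) 1 :=
  (hf.mono fun t ht => by
    rw [uIcc_of_le hq] at ht; exact lt_of_lt_of_le (by positivity) ht.1).intervalIntegrable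

/-- The outer piece for small `q`. -/
theorem outer_small {q : ℝ} (hq0 : 0 < q) (hq : q ≤ 1) :
    1 - q ^ 2 * (2273 / 1000) - q / 16 - q ^ 2 ≤ ∫ t in (q ^ 2)..1, √(1 - q ^ 2 / t) := by
  have hq2 : q ^ 2 ≤ 1 := pow_le_one₀ hq0.le hq
  set f : ℝ → ℝ := fun t => 1 - q ^ 2 / (2 * t) - q ^ 4 / (2 * t ^ 2) with hf
  have hfc : ContinuousOn f (Ioi 0) := by
    rw [hf]
    refine ContinuousOn.sub (continuousOn_const.sub ?_) ?_ <;>
      exact continuousOn_const.div (by fun_prop) fun t (ht : (0 : ℝ) < t) => by positivity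
  have hle : ∀ t ∈ Icc (q ^ 2) 1, f t ≤ √(1 - q ^ 2 / t) := by
    intro t ht
    have ht0 : 0 < t := lt_of_lt_of_le (by positivity) ht.1
    obtain ⟨u, hu⟩ : ∃ u, u = q ^ 2 / t := ⟨_, rfl⟩
    have hu0 : 0 ≤ u := hu ▸ by positivity
    have hu1 : u ≤ 1 := by rw [hu, div_le_one ht0]; exact ht.1
    have e : f t = 1 - u / 2 - u ^ 2 / 2 := by simp only [hf, hu]; field_simp
    rw [e, ← hu]
    refine Real.le_sqrt_of_sq_le ?_
    nlinarith [mul_nonneg (mul_nonneg hu0 hu0) (sub_nonneg.2 hu1),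
      mul_nonneg (mul_nonneg (mul_nonneg hu0 hu0) hu0) (sub_nonneg.2 hu1)]
  have hder : ∀ t ∈ uIcc (q ^ 2) 1,
      HasDerivAt (fun t => t - q ^ 2 / 2 * Real.log t + q ^ 4 / 2 * t⁻¹) (f t) t := by
    intro t ht
    rw [uIcc_of_le hq2] at ht
    have ht0 : 0 < t := lt_of_lt_of_le (by positivity) ht.1
    refine (((hasDerivAt_id t).sub ((Real.hasDerivAt_log ht0.ne').const_mul _)).add
      ((hasDerivAt_inv ht0.ne').const_mul _)).congr_deriv ?_
    simp only [hf]
    field_simp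
    ring
  have hval : ∫ t in (q ^ 2)..1, f t =
      1 + q ^ 4 / 2 - q ^ 2 + q ^ 2 / 2 * Real.log (q ^ 2) - q ^ 2 / 2 := by
    rw [integral_eq_sub_of_hasDerivAt hder (intervalIntegrable_ratio hq0 hq2 hfc)]
    simp only [Real.log_one, inv_one]
    field_simp
    ring
  refine le_trans ?_ (le_of_eq_of_le hval.symm (integral_mono_on hq2
    (intervalIntegrable_ratio hq0 hq2 hfc) (intervalIntegrable_ratio hq0 hq2
      (Real.continuous_sqrt.comp_continuousOn (continuousOn_const.sub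
        (continuousOn_const.div continuousOn_id fun t (ht : (0 : ℝ) < t) => ht.ne')))) hle))
  have hlog : -Real.log q ≤ 1773 / 1000 + 1 / (16 * q) := by
    have h := Real.log_le_sub_one_of_pos (show 0 < 1 / (16 * q) by positivity)
    rw [Real.log_div one_ne_zero (by positivity), Real.log_one, Real.log_mul (by norm_num) hq0.ne',
      show (16 : ℝ) = 2 ^ 4 by norm_num, Real.log_pow] at h
    have h2 := Real.log_two_lt_d9
    norm_num at h ⊢
    linarith
  have h := mul_le_mul_of_nonneg_left hlog (sq_nonneg q)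
  rw [mul_add, show q ^ 2 * (1 / (16 * q)) = q / 16 by field_simp] at h
  rw [Real.log_pow]
  push_cast
  linarith [pow_nonneg hq0.le 4]

/-- The outer piece is at least its chord in the variable `√t`. -/
theorem outer_chord {q : ℝ} (hq0 : 0 < q) (hq : q < 1) :
    √(1 - q ^ 2) * (1 - q) ≤ ∫ t in (q ^ 2)..1, √(1 - q ^ 2 / t) := by
  have hq2 : q ^ 2 ≤ 1 := pow_le_one₀ hq0.le hq.le
  set k := √(1 - q ^ 2) / (1 - q) with hk
  have hk0 : 0 ≤ k := div_nonneg (Real.sqrt_nonneg _) (by linarith)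
  have hq1 : 0 < 1 - q := by linarith
  have hfc : ContinuousOn (fun t => k * (1 - q / √t)) (Ioi 0) :=
    continuousOn_const.mul (continuousOn_const.sub (continuousOn_const.div
      Real.continuous_sqrt.continuousOn fun t (ht : (0 : ℝ) < t) => (Real.sqrt_pos.2 ht).ne'))
  have hle : ∀ t ∈ Icc (q ^ 2) 1, k * (1 - q / √t) ≤ √(1 - q ^ 2 / t) := by
    intro t ht
    have ht0 : 0 < t := lt_of_lt_of_le (by positivity) ht.1
    obtain ⟨v, hv⟩ : ∃ v, v = q / √t := ⟨_, rfl⟩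
    have hs : 0 < √t := Real.sqrt_pos.2 ht0
    have hvq : q ≤ v := by
      rw [hv, le_div_iff₀ hs]; exact mul_le_of_le_one_right hq0.le (Real.sqrt_le_one.2 ht.2)
    have hv1 : v ≤ 1 := by
      rw [hv, div_le_one hs]; exact Real.le_sqrt_of_sq_le ht.1
    have e : q ^ 2 / t = v ^ 2 := by rw [hv, div_pow, Real.sq_sqrt ht0.le]
    rw [e, ← hv]
    refine Real.le_sqrt_of_sq_le ?_
    have hvv : 0 ≤ 1 - v := by linarith
    rw [mul_pow, hk, div_pow, Real.sq_sqrt (by linarith), div_mul_eq_mul_div,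
      div_le_iff₀ (by positivity)]
    linarith [mul_nonneg (mul_nonneg hvv hq1.le) (sub_nonneg.2 hvq)]
  have hder : ∀ t ∈ uIcc (q ^ 2) 1,
      HasDerivAt (fun t => k * (t - 2 * q * √t)) (k * (1 - q / √t)) t := by
    intro t ht
    rw [uIcc_of_le hq2] at ht
    have ht0 : 0 < t := lt_of_lt_of_le (by positivity) ht.1
    refine (((hasDerivAt_id t).sub ((Real.hasDerivAt_sqrt ht0.ne').const_mul _)).const_mul k
      ).congr_deriv ?_
    have := Real.sqrt_pos.2 ht0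
    field_simp
  have hval := integral_eq_sub_of_hasDerivAt hder (intervalIntegrable_ratio hq0 hq2 hfc)
  rw [Real.sqrt_one, Real.sqrt_sq hq0.le] at hval
  refine le_trans (le_of_eq ?_) (le_of_eq_of_le hval.symm (integral_mono_on hq2
    (intervalIntegrable_ratio hq0 hq2 hfc) (intervalIntegrable_ratio hq0 hq2
      (Real.continuous_sqrt.comp_continuousOn (continuousOn_const.sub
        (continuousOn_const.div continuousOn_id fun t (ht : (0 : ℝ) < t) => ht.ne')))) hle))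
  rw [hk]
  field_simp
  ring

/-- The model exceeds what is needed. -/
theorem model_gt {p w : ℝ} (hp0 : 0 ≤ p) (hp : p ≤ 1 / 50) (hw0 : 0 ≤ w)
    (hw : w ≤ 835 / 1000) (hq0 : 0 < w + π * p) :
    π * (1 - p * (1 - w ^ 2) - w) < (π - 2) * √(1 - (w + π * p) ^ 2) +
      2 * ∫ t in ((w + π * p) ^ 2)..1, √(1 - (w + π * p) ^ 2 / t) := by
  have hpl : (31415 : ℝ) / 10000 < π := by linarith [Real.pi_gt_d4]
  have hpu : π < (31416 : ℝ) / 10000 := by linarith [Real.pi_lt_d4]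
  obtain ⟨q, hq⟩ : ∃ q, q = w + π * p := ⟨_, rfl⟩
  rw [← hq] at hq0 ⊢
  have hπp : π * p ≤ 63 / 1000 := by linarith [mul_le_mul hpu.le hp hp0 (by norm_num)]
  have hq1 : q < 1 := by linarith
  rcases le_or_gt w (1 / 4) with hw4 | hw4
  · have hJ := outer_small hq0 hq1.le
    have hq3 : q ≤ 313 / 1000 := by linarith
    have hs : 1 - 53 / 100 * q ^ 2 ≤ √(1 - q ^ 2) := by
      refine Real.le_sqrt_of_sq_le ?_
      have : q ^ 2 ≤ 1 / 10 := (pow_le_pow_left₀ hq0.le hq3 2).trans (by norm_num)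
      linarith [mul_le_mul_of_nonneg_left this (sq_nonneg q), sq_nonneg q]
    have hs' := mul_le_mul_of_nonneg_left hs (show 0 ≤ π - 2 by linarith)
    have hqq : q ^ 2 ≤ 408 / 1000 * w + 198 / 1000 * p := by
      have a1 : w * w ≤ 1 / 4 * w := mul_le_mul_of_nonneg_right hw4 hw0
      have a2 : π * p * w ≤ 63 / 1000 * w := mul_le_mul_of_nonneg_right hπp hw0
      have a3 : π * p * (π * p) ≤ 63 / 1000 * (31416 / 10000 * p) :=
        mul_le_mul hπp (mul_le_mul_of_nonneg_right hpu.le hp0) (by positivity) (by norm_num)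
      rw [hq]; linarith
    have hw2 : w ^ 2 ≤ 1 / 16 := (pow_le_pow_left₀ hw0 hw4 2).trans (by norm_num)
    have b1 : π * (w + p * (15 / 16)) ≤ π * (w + p * (1 - w ^ 2)) := by
      refine mul_le_mul_of_nonneg_left ?_ Real.pi_pos.le
      linarith [mul_le_mul_of_nonneg_left hw2 hp0]
    have b2 : 31415 / 10000 * (w + p * (15 / 16)) ≤ π * (w + p * (15 / 16)) :=
      mul_le_mul_of_nonneg_right hpl.le (by positivity)
    have b3 : π * q ^ 2 ≤ 31416 / 10000 * q ^ 2 :=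
      mul_le_mul_of_nonneg_right hpu.le (sq_nonneg q)
    have b4 : q ≤ w + 31416 / 10000 * p := by
      rw [hq]; linarith [mul_le_mul_of_nonneg_right hpu.le hp0]
    rcases (add_nonneg hw0 hp0).eq_or_lt with h0 | h0
    · exfalso
      have : w = 0 ∧ p = 0 := ⟨by linarith, by linarith⟩
      rw [this.1, this.2] at hq
      linarith
    · linarith
  · have hJ := outer_chord hq0 hq1
    obtain ⟨Q, hQ⟩ : ∃ Q, Q = w + 63 / 1000 := ⟨_, rfl⟩
    have hqQ : q ≤ Q := by linarith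
    have hQ1 : Q ≤ 898 / 1000 := by linarith
    have h1 : √(1 - Q ^ 2) * (31415 / 10000 - 2 * Q) ≤ √(1 - q ^ 2) * (π - 2 * q) :=
      mul_le_mul (Real.sqrt_le_sqrt (by linarith [pow_le_pow_left₀ hq0.le hqQ 2])) (by linarith)
        (by linarith) (Real.sqrt_nonneg _)
    have h2 : π * (1 - p * (1 - w ^ 2) - w) ≤ 31416 / 10000 * (1 - w) := by
      refine (mul_le_mul_of_nonneg_left ?_ Real.pi_pos.le).trans
        (mul_le_mul_of_nonneg_right hpu.le (by linarith))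
      linarith [mul_nonneg hp0 (sub_nonneg.2 (pow_le_one₀ (n := 2) hw0 (by linarith)))]
    have h3 : (31416 / 10000 * (1 - w)) ^ 2 < (1 - Q ^ 2) * (31415 / 10000 - 2 * Q) ^ 2 := by
      rw [hQ]
      nlinarith [mul_nonneg (sub_nonneg.2 hw4.le) (sub_nonneg.2 hw),
        mul_nonneg (mul_nonneg (sub_nonneg.2 hw4.le) (sub_nonneg.2 hw)) (sub_nonneg.2 hw4.le),
        mul_nonneg (mul_nonneg (sub_nonneg.2 hw4.le) (sub_nonneg.2 hw)) (sub_nonneg.2 hw),
        sq_nonneg (w - 1 / 2), sq_nonneg (w - 1 / 4), sq_nonneg (w - 6 / 10)]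
    have h4 : 31416 / 10000 * (1 - w) < √(1 - Q ^ 2) * (31415 / 10000 - 2 * Q) := by
      refine lt_of_pow_lt_pow_left₀ 2 (mul_nonneg (Real.sqrt_nonneg _) (by linarith)) ?_
      have hQ0 : 0 ≤ 1 - Q ^ 2 := by
        linarith [pow_le_one₀ (n := 2) (hq0.le.trans hqQ) (show Q ≤ 1 by linarith)]
      rwa [mul_pow (√(1 - Q ^ 2)), Real.sq_sqrt hQ0]
    linarith

/-- **Small `p`.** The endpoint function is positive for `p ≤ 1/50` and `w ≤ 835/1000`. -/
theorem good_small {p w : ℝ} (hp0 : 0 ≤ p) (hp : p ≤ 1 / 50) (hw0 : 0 ≤ w)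
    (hw : w ≤ 835 / 1000) (h0 : ¬(p = 0 ∧ w = 0)) : Good p w := by
  have hpi := Real.pi_gt_three
  have hpu : π < (31416 : ℝ) / 10000 := by linarith [Real.pi_lt_d4]
  obtain ⟨q, hq⟩ : ∃ q, q = w + π * p := ⟨_, rfl⟩
  have hq0 : 0 < q := by
    rw [hq]
    rcases hw0.eq_or_lt with h | h
    · have : 0 < p := lt_of_le_of_ne hp0 fun h' => h0 ⟨h'.symm, h.symm⟩
      rw [← h]; positivity
    · positivity
  have hπp : π * p ≤ 63 / 1000 := by linarith [mul_le_mul hpu.le hp hp0 (by norm_num)]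
  have hq1 : q < 1 := by linarith
  have hwq : w ≤ q := by rw [hq]; linarith [mul_nonneg Real.pi_pos.le hp0]
  have hq2 : q ^ 2 ≤ 1 := pow_le_one₀ hq0.le hq1.le
  have hwq2 := pow_le_pow_left₀ hw0 hwq 2
  have hc : ∀ t ∈ Icc (w ^ 2) (π - q ^ 2), 0 ≤ cfun p w t ∧ cfun p w t ≤ q ∧
      cfun p w t ^ 2 ≤ W2 t ∧ (q ^ 2 ≤ t → q ^ 2 ≤ W2 t) := by
    intro t ht
    have c0 : 0 ≤ cfun p w t := by
      rw [cfun]; linarith [mul_nonneg hp0 (sub_nonneg.2 ht.1)]
    have c1 : cfun p w t ≤ q := by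
      rw [cfun, hq, mul_comm π p]
      have := mul_le_mul_of_nonneg_left (show t - w ^ 2 ≤ π by
        linarith [ht.2, sq_nonneg q, sq_nonneg w]) hp0
      linarith
    have hW : q ^ 2 ≤ t → q ^ 2 ≤ W2 t := fun h => le_min h (le_min hq2 (by linarith [ht.2]))
    refine ⟨c0, c1, ?_, hW⟩
    rcases le_or_gt (q ^ 2) t with h | h
    · exact (pow_le_pow_left₀ c0 c1 2).trans (hW h)
    · rw [W2_of_le_one (h.le.trans hq2)]
      have ht0 : 0 ≤ t := (sq_nonneg w).trans ht.1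
      obtain ⟨r, hr⟩ : ∃ r, r = √t := ⟨_, rfl⟩
      have hrw : w ≤ r := hr ▸ Real.le_sqrt_of_sq_le ht.1
      have hr1 : r ≤ 1 := hr ▸ Real.sqrt_le_one.2 (h.le.trans hq2)
      have hr2 : r ^ 2 = t := hr ▸ Real.sq_sqrt ht0
      have : cfun p w t ≤ r := by
        rw [cfun, ← hr2]
        have : p * (r + w) ≤ 1 := by
          linarith [mul_le_mul_of_nonneg_left (show r + w ≤ 2 by linarith) hp0]
        linarith [mul_nonneg (sub_nonneg.2 hrw) (sub_nonneg.2 this)]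
      exact hr2 ▸ pow_le_pow_left₀ c0 this 2
  refine ⟨π - q ^ 2, by linarith, by linarith [pow_pos hq0 2],
    fun t ht => ⟨(hc t ht).1, (hc t ht).2.2.1⟩, ?_⟩
  set G : ℝ → ℝ := fun t => cfun p w t ^ 2 / max (W2 t) 0 with hG
  have hWm : Measurable W2 := by unfold W2; fun_prop
  have hGm : Measurable G := by rw [hG]; unfold cfun; fun_prop
  have hGi := intervalIntegrable_sqrt_one_sub hGm
    fun t => div_nonneg (sq_nonneg _) (le_max_right _ _)
  have hW0 : ∀ t ∈ Icc (w ^ 2) (π - q ^ 2), 0 ≤ W2 t := fun t ht =>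
    (sq_nonneg _).trans (hc t ht).2.2.1
  have hTw : w ^ 2 ≤ π - q ^ 2 := by linarith
  have e : ∫ t in (w ^ 2)..(π - q ^ 2), √(1 - cfun p w t ^ 2 / W2 t) =
      ∫ t in (w ^ 2)..(π - q ^ 2), √(1 - G t) := integral_congr fun t ht => by
    rw [uIcc_of_le hTw] at ht
    simp [hG, max_eq_left (hW0 t ht)]
  rw [e]
  have hqT : q ^ 2 ≤ π - q ^ 2 := by linarith
  have hlow : ∫ t in (q ^ 2)..(π - q ^ 2), √(1 - q ^ 2 / W2 t) ≤
      ∫ t in (q ^ 2)..(π - q ^ 2), √(1 - G t) := by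
    refine integral_mono_on hqT ?_ (hGi _ _) fun t ht => ?_
    · refine (intervalIntegrable_sqrt_one_sub (g := fun t => q ^ 2 / max (W2 t) 0) (by fun_prop)
        (fun t => div_nonneg (sq_nonneg _) (le_max_right _ _)) (q ^ 2) (π - q ^ 2)).congr_uIoo
        fun t ht => ?_
      rw [uIoo_of_le hqT] at ht
      simp [max_eq_left (hW0 t ⟨hwq2.trans ht.1.le, ht.2.le⟩)]
    · obtain ⟨c0, c1, -, hW⟩ := hc t ⟨hwq2.trans ht.1, ht.2⟩
      simp only [hG, max_eq_left (hW0 t ⟨hwq2.trans ht.1, ht.2⟩)]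
      exact Real.sqrt_le_sqrt (sub_le_sub_left (div_le_div_of_nonneg_right
        (pow_le_pow_left₀ c0 c1 2) (hW0 t ⟨hwq2.trans ht.1, ht.2⟩)) 1)
  refine lt_of_lt_of_le ?_ (hlow.trans (integral_mono_interval hwq2 hqT le_rfl
    (ae_of_all _ fun t => Real.sqrt_nonneg _) (hGi _ _)))
  rw [integral_model hq2, hq]
  exact model_gt hp0 hp hw0 hw (hq ▸ hq0)

/-- The form used by the cover. -/
theorem good_small_psiW1 {p w : ℝ} (hp0 : 0 ≤ p) (hp : p ≤ 1 / 50) (hw0 : 0 ≤ w)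
    (hw : w ≤ psiW1 p) (h0 : ¬(p = 0 ∧ w = 0)) : Good p w :=
  good_small hp0 hp hw0 (hw.trans (by rw [psiW1, if_pos (hp.trans (by norm_num))])) h0

end Vale.Agent.P232.Endpoint
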