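/-!
The exact integer checker of the certificate of the endpoint function (fixed point, `10⁷`).
-/

namespace Vale.Agent.P232.Endpoint.PsiAlt

/-- The scale. -/
def scale : Nat := 10000000

/-- A rational below `π`, times the scale. -/
def piLow : Nat := 31415920

/-- The square of the planar bound at a grid point, from below. -/
def wN (t : Nat) : Nat := min t (min scale (piLow - t))

/-- The line with the tangent of `w²` at `w₀`, times the cube of the scale. -/
def cN (p w₀ w t : Nat) : Nat := w * scale * scale + p * (t * scale + w₀ * w₀ - 2 * w₀ * w)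

/-- An approximate square root (no property of it is used). -/
def isq : Nat → Nat → Nat → Nat
  | 0, _, y => y
  | fuel + 1, q, y =>
    bif Nat.ble y ((y + q / y) / 2) then y else isq fuel q ((y + q / y) / 2)

/-- The value of the integrand at a grid point, from below, times the scale. -/
def bN (p w₀ w t : Nat) : Nat :=
  isq 40 ((scale * scale * (wN t * (scale * scale * scale)) - cN p w₀ w t * cN p w₀ w t)
    / (wN t * (scale * scale * scale))) scale

/-- The defining inequality of `bN`. -/
def valid (p w₀ w t b : Nat) : Bool :=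
  Nat.ble b scale &&
  Nat.ble (wN t * (b * b) * (scale * scale * scale) + cN p w₀ w t * cN p w₀ w t)
    (wN t * (scale * scale) * (scale * scale * scale))

/-- Twice the trapezoid sum along the grid, with the validity of every value. -/
def trap (p w₀ w : Nat) : Nat → Nat → List Nat → Option Nat
  | _, _, [] => some 0
  | a, ba, t :: l =>
    bif Nat.ble a t && valid p w₀ w t (bN p w₀ w t) then
      (trap p w₀ w t (bN p w₀ w t) l).map ((t - a) * (ba + bN p w₀ w t) + ·)
    else none

/-- One corner of a box. -/
def corner (p w₀ w₁ w x t₀ : Nat) (l : List Nat) : Bool :=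
  match trap p w₀ w t₀ (bN p w₀ w t₀) l with
  | none => false
  | some s =>
    valid p w₀ w t₀ (bN p w₀ w t₀) &&
    Nat.blt 0 ((t₀ - x) * bN p w₀ w t₀ + s) &&
    Nat.blt (62832 * (scale * scale * scale + p * ((w₀ + w₁) * w)))
      (10000 * scale * ((t₀ - x) * bN p w₀ w t₀ + s)
        + 62832 * (p * scale * scale + p * (w₀ * w₁) + w * scale * scale))

/-- Insertion into a sorted list. -/
def ins (t : Nat) : List Nat → List Nat
  | [] => [t]
  | a :: l => bif Nat.ble t a then t :: a :: l else a :: ins t l

/-- The grid of a box: a smooth step from `t₀` to `T`, geometric near `t₀`, with the two kinks. -/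
def grid (x t₀ T N : Nat) : List Nat :=
  (((List.range 9).map fun i => t₀ + x * ((2 ^ (2 * i) + 4) / 5) / 10) ++
      [scale, piLow - scale]).foldr
    (fun t l => bif Nat.blt t₀ t && Nat.blt t T then ins t l else l)
    ((List.range N).map fun k => t₀ + (T - t₀) * (3 * N * ((k + 1) * (k + 1))
      - 2 * ((k + 1) * (k + 1) * (k + 1))) / (N * N * N))

/-- A certificate: boxes in a binary splitting of a rectangle. -/
inductive Tree where
  | box (t₀ T N : Nat)
  | splitP (m : Nat) (l r : Tree)
  | splitW (m : Nat) (l r : Tree)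

/-- The check of one box. -/
def checkBox (p₀ p₁ w₀ w₁ x t₀ : Nat) (l : List Nat) : Bool :=
  Nat.ble (w₁ * w₁) (x * scale) && Nat.ble x t₀ && Nat.ble w₁ scale &&
  l.all (fun t => Nat.ble t piLow) && Nat.ble t₀ piLow &&
  corner p₀ w₀ w₁ w₀ x t₀ l && corner p₀ w₀ w₁ w₁ x t₀ l &&
  corner p₁ w₀ w₁ w₀ x t₀ l && corner p₁ w₀ w₁ w₁ x t₀ l

/-- The check of a certificate over a rectangle. -/
def Tree.check : Tree → Nat → Nat → Nat → Nat → Bool
  | .box t₀ T N, p₀, p₁, w₀, w₁ =>
    checkBox p₀ p₁ w₀ w₁ ((w₁ * w₁ + scale - 1) / scale) t₀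
      (grid ((w₁ * w₁ + scale - 1) / scale) t₀ T N)
  | .splitP m l r, p₀, p₁, w₀, w₁ => l.check p₀ m w₀ w₁ && r.check m p₁ w₀ w₁
  | .splitW m l r, p₀, p₁, w₀, w₁ => l.check p₀ p₁ w₀ m && r.check p₀ p₁ m w₁

end Vale.Agent.P232.Endpoint.PsiAlt
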