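import Vale.Agent.P232.Endpoint.PsiDefs
import Vale.Agent.P232.Endpoint.PsiAlt.Check

/-!
Soundness of the checker: concavity of the integrand between the grid points and bilinear
interpolation between the corners of a box.
-/

open MeasureTheory Set
open scoped Real

namespace Vale.Agent.P232.Endpoint.PsiAlt

/-- A grid point. -/
noncomputable def r (n : ℕ) : ℝ := (n : ℝ) / scale

theorem scale_pos : (0 : ℝ) < scale := by norm_num [scale]

theorem r_nonneg (n : ℕ) : 0 ≤ r n := div_nonneg (Nat.cast_nonneg n) scale_pos.le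

theorem r_le {m n : ℕ} (h : m ≤ n) : r m ≤ r n :=
  div_le_div_of_nonneg_right (Nat.cast_le.2 h) scale_pos.le

theorem r_lt_pi {n : ℕ} (h : n ≤ piLow) : r n < π := by
  refine lt_of_le_of_lt (r_le h) ?_
  norm_num [r, piLow, scale]
  linarith [Real.pi_gt_d6]

theorem r_wN {n : ℕ} (h : n ≤ piLow) : r (wN n) ≤ W2 (r n) := by
  refine le_min (r_le (Nat.min_le_left _ _)) (le_min ?_ ?_)
  · refine le_trans (r_le (le_trans (Nat.min_le_right _ _) (Nat.min_le_left _ _))) ?_
    rw [r, div_self scale_pos.ne']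
  · refine le_trans (r_le (le_trans (Nat.min_le_right _ _) (Nat.min_le_right _ _))) ?_
    have hp := Real.pi_gt_d6
    rw [r, r, Nat.cast_sub h, sub_div]
    gcongr
    norm_num [piLow, scale]
    linarith

/-- A bound `b` for the integrand at `t` with the line value `c`. -/
def Node (t c b : ℝ) : Prop :=
  0 ≤ W2 t ∧ 0 ≤ c ∧ 0 ≤ b ∧ b ≤ 1 ∧ b ^ 2 * W2 t + c ^ 2 ≤ W2 t

theorem Node.mix {t c c' b b' u : ℝ} (h : Node t c b) (h' : Node t c' b') (hu0 : 0 ≤ u)
    (hu1 : u ≤ 1) : Node t ((1 - u) * c + u * c') ((1 - u) * b + u * b') := by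
  obtain ⟨hW, hc, hb, hb1, h⟩ := h
  obtain ⟨-, hc', hb', hb1', h'⟩ := h'
  have hu : 0 ≤ 1 - u := sub_nonneg.2 hu1
  refine ⟨hW, by positivity, by positivity, by nlinarith, ?_⟩
  linarith [mul_le_mul_of_nonneg_left h hu, mul_le_mul_of_nonneg_left h' hu0,
    mul_nonneg (mul_nonneg hu hu0) (mul_nonneg hW (sq_nonneg (b - b'))),
    mul_nonneg (mul_nonneg hu hu0) (sq_nonneg (c - c'))]

/-- Bilinear interpolation in the corners of a box. -/
def bil (u v : ℝ) (f : Bool → Bool → ℝ) : ℝ :=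
  (1 - u) * ((1 - v) * f false false + v * f false true)
    + u * ((1 - v) * f true false + v * f true true)

theorem Node.bil {t u v : ℝ} {c b : Bool → Bool → ℝ} (h : ∀ i j, Node t (c i j) (b i j))
    (hu0 : 0 ≤ u) (hu1 : u ≤ 1) (hv0 : 0 ≤ v) (hv1 : v ≤ 1) :
    Node t (PsiAlt.bil u v c) (PsiAlt.bil u v b) :=
  ((h false false).mix (h false true) hv0 hv1).mix ((h true false).mix (h true true) hv0 hv1)
    hu0 hu1

theorem Node.mono {t c c' b : ℝ} (h : Node t c b) (hc' : 0 ≤ c') (hcc : c' ≤ c) :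
    Node t c' b :=
  ⟨h.1, hc', h.2.2.1, h.2.2.2.1, le_trans (by gcongr) h.2.2.2.2⟩

theorem W2_concave {a b s : ℝ} (hs0 : 0 ≤ s) (hs1 : s ≤ 1) :
    (1 - s) * W2 a + s * W2 b ≤ W2 ((1 - s) * a + s * b) := by
  have hs : 0 ≤ 1 - s := sub_nonneg.2 hs1
  have h : ∀ x y : ℝ, W2 a ≤ x → W2 b ≤ y → (1 - s) * W2 a + s * W2 b ≤ (1 - s) * x + s * y :=
    fun x y hx hy => add_le_add (mul_le_mul_of_nonneg_left hx hs)
      (mul_le_mul_of_nonneg_left hy hs0)
  refine le_min (h a b (min_le_left _ _) (min_le_left _ _)) (le_min ?_ ?_)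
  · refine (h 1 1 ((min_le_right _ _).trans (min_le_left _ _))
      ((min_le_right _ _).trans (min_le_left _ _))).trans (le_of_eq ?_)
    ring
  · refine (h (π - a) (π - b) ((min_le_right _ _).trans (min_le_right _ _))
      ((min_le_right _ _).trans (min_le_right _ _))).trans (le_of_eq ?_)
    ring

/-- The node inequality holds on a segment for the linear interpolation. -/
theorem Node.segment {p w a b β γ s : ℝ} (ha : Node a (cfun p w a) β)
    (hb : Node b (cfun p w b) γ) (hs0 : 0 ≤ s) (hs1 : s ≤ 1) :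
    Node ((1 - s) * a + s * b) (cfun p w ((1 - s) * a + s * b))
      ((1 - s) * β + s * γ) := by
  obtain ⟨hWa0, hca, hβ, hβ1, h⟩ := ha
  obtain ⟨hWb0, hcb, hγ, hγ1, h'⟩ := hb
  have hs : 0 ≤ 1 - s := sub_nonneg.2 hs1
  have e : cfun p w ((1 - s) * a + s * b) = (1 - s) * cfun p w a + s * cfun p w b := by
    simp only [cfun]; ring
  set Z := (1 - s) * β + s * γ with hZ
  have hZ1 : Z ≤ 1 := by rw [hZ]; nlinarith
  have hZ0 : 0 ≤ Z := by positivity
  set A := 1 - β ^ 2 with hA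
  set B := 1 - γ ^ 2 with hB
  have hA0 : 0 ≤ A := by rw [hA]; nlinarith
  have hB0 : 0 ≤ B := by rw [hB]; nlinarith
  have ha' : cfun p w a ^ 2 ≤ W2 a * A := by rw [hA]; linarith
  have hb' : cfun p w b ^ 2 ≤ W2 b * B := by rw [hB]; linarith
  rw [e]
  set C := cfun p w a
  set C' := cfun p w b
  have hWa : 0 ≤ W2 a * A := (sq_nonneg C).trans ha'
  have hWb : 0 ≤ W2 b * B := (sq_nonneg C').trans hb'
  refine ⟨le_trans (by positivity) (W2_concave hs0 hs1), by positivity, hZ0, hZ1, ?_⟩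
  have hsum : 0 ≤ W2 a * B + W2 b * A := by positivity
  have hcross : 2 * (C * C') ≤ W2 a * B + W2 b * A := by
    refine le_of_pow_le_pow_left₀ two_ne_zero hsum ?_
    nlinarith [mul_le_mul ha' hb' (sq_nonneg C') hWa, sq_nonneg (W2 a * B - W2 b * A)]
  have hAB : (1 - s) * A + s * B ≤ 1 - Z ^ 2 := by
    rw [hA, hB, hZ]; nlinarith [mul_nonneg (mul_nonneg hs hs0) (sq_nonneg (β - γ))]
  have h1 : ((1 - s) * C + s * C') ^ 2
      ≤ ((1 - s) * W2 a + s * W2 b) * ((1 - s) * A + s * B) := by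
    nlinarith [mul_le_mul_of_nonneg_left ha' (mul_nonneg hs hs),
      mul_le_mul_of_nonneg_left hb' (mul_nonneg hs0 hs0),
      mul_le_mul_of_nonneg_left hcross (mul_nonneg hs hs0)]
  have h2 : ((1 - s) * W2 a + s * W2 b) * ((1 - s) * A + s * B)
      ≤ W2 ((1 - s) * a + s * b) * (1 - Z ^ 2) := by
    refine mul_le_mul (W2_concave hs0 hs1) hAB (by positivity) ?_
    exact le_trans (by positivity) (W2_concave hs0 hs1)
  linarith

/-- The integrand. -/
noncomputable def phi (p w t : ℝ) : ℝ := √(1 - cfun p w t ^ 2 / W2 t)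

theorem W2_pos {t : ℝ} (h0 : 0 < t) (h1 : t < π) : 0 < W2 t :=
  lt_min h0 (lt_min one_pos (sub_pos.2 h1))

theorem intervalIntegrable_phi (p w : ℝ) {a b : ℝ} (ha : 0 ≤ a) (hab : a ≤ b) (hb : b ≤ π) :
    IntervalIntegrable (phi p w) volume a b := by
  rw [intervalIntegrable_iff_integrableOn_Ioc_of_le hab]
  refine IntegrableOn.of_bound (by simp) ?_ 1 ?_
  · exact Measurable.aestronglyMeasurable (by unfold phi cfun W2; fun_prop)
  · filter_upwards [ae_restrict_mem measurableSet_Ioc] with t ht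
    rw [phi, Real.norm_of_nonneg (Real.sqrt_nonneg _)]
    refine Real.sqrt_le_one.2 ?_
    have : 0 ≤ W2 t := le_min (ha.trans ht.1.le) (le_min zero_le_one (sub_nonneg.2 (ht.2.trans hb)))
    linarith [div_nonneg (sq_nonneg (cfun p w t)) this]

/-- One trapezoid. -/
theorem segment_bound {p w a b β γ : ℝ} (ha0 : 0 ≤ a) (hab : a ≤ b) (hbπ : b ≤ π)
    (ha : Node a (cfun p w a) β) (hb : Node b (cfun p w b) γ) :
    (∀ t ∈ Icc a b, 0 ≤ cfun p w t ∧ cfun p w t ^ 2 ≤ W2 t) ∧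
      (b - a) * (β + γ) ≤ 2 * ∫ t in a..b, phi p w t := by
  rcases eq_or_lt_of_le hab with rfl | hlt
  · refine ⟨fun t ht => ?_, by simp⟩
    rw [Icc_self, mem_singleton_iff] at ht
    subst ht
    obtain ⟨hW, h1, h2, h3, h4⟩ := ha
    exact ⟨h1, by nlinarith [mul_nonneg (sq_nonneg β) hW]⟩
  have hd : 0 < b - a := sub_pos.2 hlt
  have hnode : ∀ t ∈ Icc a b, Node t (cfun p w t)
      (β + (γ - β) / (b - a) * (t - a)) := by
    intro t ht
    have h := ha.segment hb (s := (t - a) / (b - a)) (div_nonneg (sub_nonneg.2 ht.1) hd.le)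
      ((div_le_one hd).2 (by linarith [ht.2]))
    have e1 : (1 - (t - a) / (b - a)) * a + (t - a) / (b - a) * b = t := by field_simp; ring
    have e2 : (1 - (t - a) / (b - a)) * β + (t - a) / (b - a) * γ
        = β + (γ - β) / (b - a) * (t - a) := by field_simp; ring
    rwa [e1, e2] at h
  refine ⟨fun t ht => ?_, ?_⟩
  · obtain ⟨this, h1, h2, h3, h4⟩ := hnode t ht
    exact ⟨h1, by nlinarith [mul_nonneg (sq_nonneg (β + (γ - β) / (b - a) * (t - a))) this]⟩
  have hlin : ∫ t in a..b, (β + (γ - β) / (b - a) * (t - a)) = (b - a) * (β + γ) / 2 := by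
    rw [intervalIntegral.integral_add intervalIntegrable_const
      ((by fun_prop : Continuous fun t : ℝ => (γ - β) / (b - a) * (t - a)).intervalIntegrable _ _),
      intervalIntegral.integral_const_mul,
      intervalIntegral.integral_sub (by simp) intervalIntegrable_const,
      intervalIntegral.integral_const, intervalIntegral.integral_const, integral_id]
    simp only [smul_eq_mul]
    field_simp
    ring
  have hle : ∫ t in a..b, (β + (γ - β) / (b - a) * (t - a)) ≤ ∫ t in a..b, phi p w t := by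
    refine intervalIntegral.integral_mono_on_of_le_Ioo hab
      ((by fun_prop : Continuous fun t : ℝ => β + (γ - β) / (b - a) * (t - a)).intervalIntegrable
        _ _) (intervalIntegrable_phi p w ha0 hab hbπ) fun t ht => ?_
    obtain ⟨-, -, h2, -, h4⟩ := hnode t (Ioo_subset_Icc_self ht)
    have hW := W2_pos (ha0.trans_lt ht.1) (ht.2.trans_le hbπ)
    refine Real.le_sqrt_of_sq_le ?_
    rw [le_sub_iff_add_le, ← le_sub_iff_add_le', div_le_iff₀ hW]
    linarith
  linarith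

/-- The trapezoid sum of arbitrary node values. -/
noncomputable def sumR (f : ℕ → ℝ) : ℕ → List ℕ → ℝ
  | _, [] => 0
  | a, t :: l => ((t : ℝ) - a) * (f a + f t) + sumR f t l

/-- The grid with node inequalities. -/
def Good' (p w : ℝ) (f : ℕ → ℝ) : ℕ → List ℕ → Prop
  | a, [] => a ≤ piLow ∧ Node (r a) (cfun p w (r a)) (f a)
  | a, t :: l => a ≤ t ∧ Node (r a) (cfun p w (r a)) (f a) ∧ Good' p w f t l

theorem Good'.node {p w : ℝ} {f : ℕ → ℝ} : ∀ {l : List ℕ} {a : ℕ}, Good' p w f a l →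
    a ≤ piLow ∧ Node (r a) (cfun p w (r a)) (f a)
  | [], _, h => h
  | _ :: _, _, h => ⟨h.1.trans h.2.2.node.1, h.2.1⟩

theorem chain_bound {p w : ℝ} {f : ℕ → ℝ} : ∀ (l : List ℕ) (a : ℕ), Good' p w f a l →
    ∃ e, a ≤ e ∧ e ≤ piLow ∧
      (∀ t ∈ Icc (r a) (r e), 0 ≤ cfun p w t ∧ cfun p w t ^ 2 ≤ W2 t) ∧
      sumR f a l ≤ 2 * scale * ∫ t in (r a)..(r e), phi p w t
  | [], a, h => by
    refine ⟨a, le_rfl, h.1, ?_, by simp [sumR]⟩
    exact (segment_bound (r_nonneg a) le_rfl (r_lt_pi h.1).le h.2 h.2).1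
  | t :: l, a, h => by
    obtain ⟨e, hte, he, hadm, hsum⟩ := chain_bound l t h.2.2
    have htπ := (r_lt_pi h.2.2.node.1).le
    have hseg := segment_bound (r_nonneg a) (r_le h.1) htπ h.2.1 h.2.2.node.2
    refine ⟨e, h.1.trans hte, he, fun x hx => ?_, ?_⟩
    · rcases le_total x (r t) with h' | h'
      · exact hseg.1 x ⟨hx.1, h'⟩
      · exact hadm x ⟨h', hx.2⟩
    · rw [← intervalIntegral.integral_add_adjacent_intervals
        (intervalIntegrable_phi p w (r_nonneg a) (r_le h.1) htπ)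
        (intervalIntegrable_phi p w (r_nonneg t) (r_le hte) (r_lt_pi he).le)]
      have h2 := mul_le_mul_of_nonneg_left hseg.2 scale_pos.le
      have e1 : (scale : ℝ) * ((r t - r a) * (f a + f t)) = ((t : ℝ) - a) * (f a + f t) := by
        rw [r, r, ← sub_div, ← mul_assoc, mul_div_cancel₀ _ scale_pos.ne']
      simp only [sumR]
      linarith

theorem valid_node {p w₀ w t b : ℕ} (h : valid p w₀ w t b = true) (ht : t ≤ piLow)
    (hc : 2 * w₀ * w ≤ t * scale + w₀ * w₀) :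
    Node (r t) (r w + r p * (r t + r w₀ ^ 2 - 2 * r w₀ * r w)) (r b) := by
  simp only [valid, Bool.and_eq_true, Nat.ble_eq] at h
  have hD := scale_pos
  have ec : r w + r p * (r t + r w₀ ^ 2 - 2 * r w₀ * r w)
      = (cN p w₀ w t : ℝ) / (scale : ℝ) ^ 3 := by
    obtain ⟨d, hd⟩ := Nat.le.dest hc
    have hd' : (2 : ℝ) * w₀ * w + d = t * (scale : ℝ) + (w₀ : ℝ) * w₀ := by exact_mod_cast hd
    have hc' : cN p w₀ w t = w * scale * scale + p * d := by
      simp only [cN, ← hd, Nat.add_sub_cancel_left]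
    rw [hc', Nat.cast_add, Nat.cast_mul, Nat.cast_mul, Nat.cast_mul, eq_div_iff (by positivity),
      eq_sub_of_add_eq' hd']
    simp only [r]
    field_simp
  rw [ec]
  have hb1 : r b ≤ 1 := (div_le_one hD).2 (Nat.cast_le.2 h.1)
  refine ⟨(r_nonneg _).trans (r_wN ht), div_nonneg (Nat.cast_nonneg _) (pow_nonneg hD.le 3),
    r_nonneg b, hb1, ?_⟩
  have h' : (wN t : ℝ) * (b * b) * ((scale : ℝ) * scale * scale) + (cN p w₀ w t : ℝ) * cN p w₀ w t
      ≤ (wN t : ℝ) * (scale * scale) * ((scale : ℝ) * scale * scale) := by exact_mod_cast h.2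
  have hlow : r b ^ 2 * r (wN t) + ((cN p w₀ w t : ℝ) / (scale : ℝ) ^ 3) ^ 2 ≤ r (wN t) := by
    have := div_le_div_of_nonneg_right h' (show (0 : ℝ) ≤ (scale : ℝ) ^ 6 by positivity)
    refine le_of_eq_of_le ?_ (this.trans (le_of_eq ?_)) <;> simp only [r] <;> field_simp
  nlinarith [mul_nonneg (sub_nonneg.2 (r_wN ht)) (sub_nonneg.2 (pow_le_one₀ (n := 2)
    (r_nonneg b) hb1))]

theorem trap_sound {p w₀ w : ℕ} : ∀ (l : List ℕ) (a s : ℕ),
    trap p w₀ w a (bN p w₀ w a) l = some s →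
    List.IsChain (fun i j => i ≤ j) (a :: l) ∧ (∀ t ∈ l, valid p w₀ w t (bN p w₀ w t) = true) ∧
      (s : ℝ) = sumR (fun n => (bN p w₀ w n : ℝ)) a l
  | [], a, s, h => by
    simp only [trap, Option.some.injEq] at h
    subst h
    simp [sumR]
  | t :: l, a, s, h => by
    rw [trap] at h
    cases hc : (Nat.ble a t && valid p w₀ w t (bN p w₀ w t)) with
    | false => simp [hc] at h
    | true =>
      rw [hc, cond_true, Option.map_eq_some_iff] at h
      obtain ⟨u, hu, rfl⟩ := h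
      obtain ⟨h1, h2, h3⟩ := trap_sound l t u hu
      simp only [Bool.and_eq_true, Nat.ble_eq] at hc
      refine ⟨List.isChain_cons_cons.2 ⟨hc.1, h1⟩, List.forall_mem_cons.2 ⟨hc.2, h2⟩, ?_⟩
      push_cast [Nat.cast_sub hc.1]
      simp only [sumR, ← h3]

theorem good'_of_chain {p w : ℝ} {f : ℕ → ℝ} : ∀ (l : List ℕ) (a : ℕ),
    List.IsChain (fun i j => i ≤ j) (a :: l) →
    (∀ t ∈ a :: l, t ≤ piLow ∧ Node (r t) (cfun p w (r t)) (f t)) → Good' p w f a l
  | [], a, _, h => h a List.mem_cons_self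
  | t :: l, a, hc, h => ⟨(List.isChain_cons_cons.1 hc).1, (h a List.mem_cons_self).2,
      good'_of_chain l t (List.isChain_cons_cons.1 hc).2 fun s hs =>
        h s (List.mem_cons_of_mem _ hs)⟩

theorem sumR_bil (u v : ℝ) (g : Bool → Bool → ℕ → ℝ) : ∀ (l : List ℕ) (a : ℕ),
    sumR (fun n => bil u v fun i j => g i j n) a l = bil u v fun i j => sumR (g i j) a l
  | [], a => by simp [sumR, bil]
  | t :: l, a => by
    rw [sumR, sumR_bil u v g l t]
    simp only [bil, sumR]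
    ring

theorem sumR_div (f : ℕ → ℝ) (c : ℝ) : ∀ (l : List ℕ) (a : ℕ),
    sumR (fun n => f n / c) a l = sumR f a l / c
  | [], a => by simp [sumR]
  | t :: l, a => by simp only [sumR, sumR_div f c l t]; ring

theorem bil_lt {u v : ℝ} (hu0 : 0 ≤ u) (hu1 : u ≤ 1) (hv0 : 0 ≤ v) (hv1 : v ≤ 1)
    {f g : Bool → Bool → ℝ} (h : ∀ i j, f i j < g i j) : bil u v f < bil u v g := by
  obtain ⟨ε, hε, hb⟩ : ∃ ε > 0, ∀ i j, f i j + ε ≤ g i j := by
    refine ⟨min (min (g false false - f false false) (g false true - f false true))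
      (min (g true false - f true false) (g true true - f true true)),
      lt_min (lt_min (sub_pos.2 (h _ _)) (sub_pos.2 (h _ _)))
        (lt_min (sub_pos.2 (h _ _)) (sub_pos.2 (h _ _))), fun i j => ?_⟩
    rw [← le_sub_iff_add_le']
    cases i <;> cases j <;> simp
  have hu : 0 ≤ 1 - u := sub_nonneg.2 hu1
  have hv : 0 ≤ 1 - v := sub_nonneg.2 hv1
  unfold bil
  nlinarith [mul_le_mul_of_nonneg_left (hb false false) (mul_nonneg hu hv),
    mul_le_mul_of_nonneg_left (hb false true) (mul_nonneg hu hv0),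
    mul_le_mul_of_nonneg_left (hb true false) (mul_nonneg hu0 hv),
    mul_le_mul_of_nonneg_left (hb true true) (mul_nonneg hu0 hv0)]

/-- **Soundness of one box.** -/
theorem box_sound {p₀ p₁ w₀ w₁ x t₀ : ℕ} {l : List ℕ}
    (h : checkBox p₀ p₁ w₀ w₁ x t₀ l = true) {p w : ℝ} (hp : p ∈ Icc (r p₀) (r p₁))
    (hw : w ∈ Icc (r w₀) (r w₁)) : Good p w := by
  simp only [checkBox, Bool.and_eq_true, Nat.ble_eq, List.all_eq_true] at h
  obtain ⟨⟨⟨⟨⟨⟨⟨⟨hx, hxt⟩, hw1⟩, hl⟩, ht0⟩, hA⟩, hB⟩, hC⟩, hE⟩ := h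
  set P : Bool → ℕ := fun i => bif i then p₁ else p₀ with hP
  set V : Bool → ℕ := fun j => bif j then w₁ else w₀ with hV
  have hw01 : w₀ ≤ w₁ := by
    have h := hw.1.trans hw.2
    rw [r, r, div_le_div_iff_of_pos_right scale_pos] at h
    exact_mod_cast h
  have hcorner : ∀ i j, corner (P i) w₀ w₁ (V j) x t₀ l = true := fun i j => by
    cases i <;> cases j <;> assumption
  have hc : ∀ i j, ∃ s, trap (P i) w₀ (V j) t₀ (bN (P i) w₀ (V j) t₀) l = some s ∧
      valid (P i) w₀ (V j) t₀ (bN (P i) w₀ (V j) t₀) = true ∧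
      0 < (t₀ - x) * bN (P i) w₀ (V j) t₀ + s ∧
      62832 * (scale * scale * scale + P i * ((w₀ + w₁) * V j))
        < 10000 * scale * ((t₀ - x) * bN (P i) w₀ (V j) t₀ + s)
          + 62832 * (P i * scale * scale + P i * (w₀ * w₁) + V j * scale * scale) := by
    intro i j
    have h := hcorner i j
    unfold corner at h
    cases hs : trap (P i) w₀ (V j) t₀ (bN (P i) w₀ (V j) t₀) l with
    | none => simp [hs] at h
    | some s =>
      simp only [hs, Bool.and_eq_true, Nat.blt_eq] at h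
      exact ⟨s, rfl, h.1.1, h.1.2, h.2⟩
  choose S hS hval hpos hineq using hc
  obtain ⟨u, hu0, hu1, rfl⟩ : ∃ u, 0 ≤ u ∧ u ≤ 1 ∧ p = (1 - u) * r p₀ + u * r p₁ := by
    rcases eq_or_lt_of_le (hp.1.trans hp.2) with h | h
    · exact ⟨0, le_rfl, zero_le_one, by linarith [hp.1, hp.2]⟩
    · refine ⟨(p - r p₀) / (r p₁ - r p₀), div_nonneg (sub_nonneg.2 hp.1) (sub_pos.2 h).le,
        (div_le_one (sub_pos.2 h)).2 (by linarith [hp.2]), ?_⟩
      field_simp [(sub_pos.2 h).ne']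
      ring
  obtain ⟨v, hv0, hv1, rfl⟩ : ∃ v, 0 ≤ v ∧ v ≤ 1 ∧ w = (1 - v) * r w₀ + v * r w₁ := by
    rcases eq_or_lt_of_le (hw.1.trans hw.2) with h | h
    · exact ⟨0, le_rfl, zero_le_one, by linarith [hw.1, hw.2]⟩
    · refine ⟨(w - r w₀) / (r w₁ - r w₀), div_nonneg (sub_nonneg.2 hw.1) (sub_pos.2 h).le,
        (div_le_one (sub_pos.2 h)).2 (by linarith [hw.2]), ?_⟩
      field_simp [(sub_pos.2 h).ne']
      ring
  set p := (1 - u) * r p₀ + u * r p₁ with hpdef
  set w := (1 - v) * r w₀ + v * r w₁ with hwdef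
  have hp0 : 0 ≤ p := (r_nonneg _).trans hp.1
  have hw0 : 0 ≤ w := (r_nonneg _).trans hw.1
  have hwle : w ≤ 1 := hw.2.trans ((div_le_one scale_pos).2 (Nat.cast_le.2 hw1))
  have hwx : w ^ 2 ≤ r x := by
    refine (pow_le_pow_left₀ hw0 hw.2 2).trans ?_
    rw [r, r, div_pow, div_le_div_iff₀ (pow_pos scale_pos 2) scale_pos]
    calc (w₁ : ℝ) ^ 2 * scale ≤ ((x : ℝ) * scale) * scale := by
          gcongr; rw [sq]; exact_mod_cast hx
      _ = _ := by ring
  set f : ℕ → ℝ := fun n => bil u v fun i j => (bN (P i) w₀ (V j) n : ℝ) / scale with hf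
  have hchain := (trap_sound l t₀ _ (hS false false)).1
  have hge : ∀ t ∈ t₀ :: l, t₀ ≤ t := fun t ht => by
    rcases List.mem_cons.1 ht with rfl | ht
    · exact le_rfl
    · exact List.rel_of_pairwise_cons (List.isChain_iff_pairwise.1 hchain) ht
  have hnodes : ∀ t ∈ t₀ :: l, t ≤ piLow ∧ Node (r t) (cfun p w (r t)) (f t) := by
    intro t ht
    have htp : t ≤ piLow := by
      rcases List.mem_cons.1 ht with rfl | ht
      · exact ht0
      · exact hl t ht
    refine ⟨htp, ?_⟩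
    have hxs : w₁ * w₁ ≤ t * scale :=
      hx.trans (Nat.mul_le_mul_right _ (hxt.trans (hge t ht)))
    have hn : ∀ i j, Node (r t)
        (r (V j) + r (P i) * (r t + r w₀ ^ 2 - 2 * r w₀ * r (V j)))
        ((bN (P i) w₀ (V j) t : ℝ) / scale) := by
      intro i j
      refine valid_node ?_ htp ?_
      · rcases List.mem_cons.1 ht with rfl | ht
        · exact hval i j
        · exact (trap_sound l t₀ _ (hS i j)).2.1 t ht
      · have hVj : V j ≤ w₁ := by cases j; exacts [hw01, le_rfl]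
        nlinarith [Nat.mul_le_mul hVj hVj, two_mul_le_add_sq (w₀ : ℕ) (V j)]
    refine (Node.bil hn hu0 hu1 hv0 hv1).mono ?_ (le_trans
      (b := w + p * (r t + r w₀ ^ 2 - 2 * r w₀ * w)) ?_ (le_of_eq ?_))
      (c := bil u v fun i j => r (V j) + r (P i) * (r t + r w₀ ^ 2 - 2 * r w₀ * r (V j)))
    · have : w ^ 2 ≤ r t := hwx.trans (r_le (hxt.trans (hge t ht)))
      simp only [cfun]
      nlinarith [mul_nonneg hp0 (sub_nonneg.2 this)]
    · simp only [cfun]
      nlinarith [mul_nonneg hp0 (sq_nonneg (w - r w₀))]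
    · simp only [bil, hP, hV, hpdef, hwdef, cond_true, cond_false]; ring
  obtain ⟨e, he0, he, hadm, hsum⟩ := chain_bound l t₀ (good'_of_chain l t₀ hchain hnodes)
  have hx0 : 0 ≤ w ^ 2 := sq_nonneg w
  have hπ1 : w ^ 2 ≤ 1 := pow_le_one₀ hw0 hwle
  have hstart : Node (w ^ 2) (cfun p w (w ^ 2)) 0 := by
    have hW : W2 (w ^ 2) = w ^ 2 :=
      min_eq_left (le_min hπ1 (by linarith [Real.pi_gt_three]))
    refine ⟨hW.symm ▸ sq_nonneg w, by simp [cfun, hw0], le_rfl, zero_le_one, ?_⟩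
    rw [hW]; simp [cfun]
  have hwt : w ^ 2 ≤ r t₀ := hwx.trans (r_le hxt)
  have hseg := segment_bound hx0 hwt (r_lt_pi ht0).le hstart (hnodes t₀ List.mem_cons_self).2
  refine ⟨r e, hwt.trans (r_le he0), r_lt_pi he, fun t ht => ?_, ?_⟩
  · rcases le_total t (r t₀) with h' | h'
    · exact hseg.1 t ⟨ht.1, h'⟩
    · exact hadm t ⟨h', ht.2⟩
  show _ < ∫ t in (w ^ 2)..(r e), phi p w t
  rw [← intervalIntegral.integral_add_adjacent_intervals
    (intervalIntegrable_phi p w hx0 hwt (r_lt_pi ht0).le)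
    (intervalIntegrable_phi p w (r_nonneg t₀) (r_le he0) (r_lt_pi he).le)]
  -- the corners
  have hD := scale_pos
  set σ : Bool → Bool → ℝ := fun i j =>
    (((t₀ - x : ℕ) : ℝ) * bN (P i) w₀ (V j) t₀ + S i j) / (2 * (scale : ℝ) ^ 2) with hσ
  set ρ : Bool → Bool → ℝ := fun i j =>
    1 - r (P i) - r (V j) + r (P i) * ((r w₀ + r w₁) * r (V j) - r w₀ * r w₁) with hρ
  have h1 : bil u v (fun i j => 31416 / 10000 * ρ i j) < bil u v σ := by
    refine bil_lt hu0 hu1 hv0 hv1 fun i j => ?_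
    have h : (62832 : ℝ) * ((scale : ℝ) * scale * scale + P i * ((w₀ + w₁) * V j))
        < 10000 * scale * (((t₀ - x : ℕ) : ℝ) * bN (P i) w₀ (V j) t₀ + S i j)
          + 62832 * (P i * scale * scale + P i * (w₀ * w₁) + V j * scale * scale) := by
      exact_mod_cast hineq i j
    simp only [hσ, hρ, r]
    rw [lt_div_iff₀ (mul_pos two_pos (pow_pos hD 2))]
    field_simp
    linarith
  have h2 : bil u v (fun _ _ => 0) < bil u v σ := bil_lt hu0 hu1 hv0 hv1 fun i j =>
    div_pos (by exact_mod_cast hpos i j) (mul_pos two_pos (pow_pos hD 2))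
  replace h2 : 0 < bil u v σ := lt_of_eq_of_lt (by simp [bil]) h2
  have hρle : 1 - p * (1 - w ^ 2) - w ≤ bil u v ρ := by
    have e : bil u v ρ
        = 1 - p - w + p * ((r w₀ + r w₁) * w - r w₀ * r w₁) := by
      simp only [bil, hρ, hP, hV, hpdef, hwdef, cond_true, cond_false]; ring
    rw [e]
    linarith [mul_nonneg hp0 (mul_nonneg (sub_nonneg.2 hw.1) (sub_nonneg.2 hw.2))]
  have hσle : bil u v σ
      ≤ (∫ t in (w ^ 2)..(r t₀), phi p w t) + ∫ t in (r t₀)..(r e), phi p w t := by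
    have hf0 : 0 ≤ f t₀ := (hnodes t₀ List.mem_cons_self).2.2.2.1
    have a1 : (r t₀ - r x) * f t₀ ≤ (r t₀ - w ^ 2) * (0 + f t₀) := by
      rw [zero_add]; gcongr
    have a2 : sumR f t₀ l = bil u v (fun i j => (S i j : ℝ)) / scale := by
      rw [hf, sumR_bil u v (fun i j n => (bN (P i) w₀ (V j) n : ℝ) / scale) l t₀]
      simp only [sumR_div, ← (trap_sound l t₀ _ (hS _ _)).2.2, bil]
      ring
    have eσ : bil u v σ = (r t₀ - r x) * f t₀ / 2
        + bil u v (fun i j => (S i j : ℝ)) / scale / (2 * scale) := by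
      simp only [hσ, hf, bil, r, Nat.cast_sub hxt]
      field_simp
      ring
    rw [eσ, ← a2]
    have a3 : sumR f t₀ l / (2 * scale) ≤ ∫ t in (r t₀)..(r e), phi p w t := by
      rw [div_le_iff₀ (mul_pos two_pos hD)]; linarith
    linarith [hseg.2]
  rcases le_or_gt (1 - p * (1 - w ^ 2) - w) 0 with hR | hR
  · linarith [mul_nonpos_of_nonneg_of_nonpos Real.pi_nonneg hR]
  · have := mul_le_mul (Real.pi_lt_d4.le) hρle hR.le (by norm_num : (0 : ℝ) ≤ 3.1416)
    have e : bil u v (fun i j => 31416 / 10000 * ρ i j) = 31416 / 10000 * bil u v ρ := by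
      simp only [bil]; ring
    rw [e] at h1
    norm_num at this h1 ⊢
    linarith

/-- **Soundness of a certificate.** -/
theorem Tree.sound : ∀ (T : Tree) (p₀ p₁ w₀ w₁ : ℕ), T.check p₀ p₁ w₀ w₁ = true →
    ∀ {p w : ℝ}, p ∈ Icc (r p₀) (r p₁) → w ∈ Icc (r w₀) (r w₁) → Good p w
  | .box t₀ T N, p₀, p₁, w₀, w₁, h, p, w, hp, hw => box_sound (by simpa [Tree.check] using h) hp hw
  | .splitP m l r', p₀, p₁, w₀, w₁, h, p, w, hp, hw => by
    simp only [Tree.check, Bool.and_eq_true] at h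
    rcases le_total p (r m) with h' | h'
    · exact Tree.sound l p₀ m w₀ w₁ h.1 ⟨hp.1, h'⟩ hw
    · exact Tree.sound r' m p₁ w₀ w₁ h.2 ⟨h', hp.2⟩ hw
  | .splitW m l r', p₀, p₁, w₀, w₁, h, p, w, hp, hw => by
    simp only [Tree.check, Bool.and_eq_true] at h
    rcases le_total w (r m) with h' | h'
    · exact Tree.sound l p₀ p₁ w₀ m h.1 hp ⟨hw.1, h'⟩
    · exact Tree.sound r' p₀ p₁ m w₁ h.2 hp ⟨h', hw.2⟩

end Vale.Agent.P232.Endpoint.PsiAlt
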