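import Vale.Agent.P232.Endpoint.Assembly
import Vale.Agent.P232.Endpoint.PsiAlt.Data
import Vale.Agent.P232.Endpoint.PsiAlt.Sound
import Vale.Agent.P232.Endpoint.PsiAlt.Small

/-!
Positivity of the endpoint function on the whole range of `psi_pos`.
-/

open Set

namespace Vale.Agent.P232.Endpoint

open PsiAlt

theorem good_band0 {p w : ℝ} (h0 : (1 / 50 : ℝ) < p) (h1 : p ≤ (1 / 20 : ℝ)) (hw : psiW0 p ≤ w)
    (hw' : w ≤ psiW1 p) : Good p w := by
  refine tree0.sound 200000 500000 0 8350000 band0 ?_ ?_ <;> rw [mem_Icc] <;> refine ⟨?_, ?_⟩ <;>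
    norm_num [r, scale]
  · linarith
  · linarith
  · refine le_of_eq_of_le ?_ hw
    rw [psiW0, if_pos (by linarith)]
    all_goals norm_num
  · refine le_of_le_of_eq hw' ?_
    rw [psiW1, if_pos (by linarith)]
    all_goals norm_num

theorem good_band1 {p w : ℝ} (h0 : (1 / 20 : ℝ) < p) (h1 : p ≤ (1 / 10 : ℝ)) (hw : psiW0 p ≤ w)
    (hw' : w ≤ psiW1 p) : Good p w := by
  refine tree1.sound 500000 1000000 0 7410000 band1 ?_ ?_ <;> rw [mem_Icc] <;> refine ⟨?_, ?_⟩ <;>
    norm_num [r, scale]
  · linarith
  · linarith
  · refine le_of_eq_of_le ?_ hw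
    rw [psiW0, if_pos (by linarith)]
    all_goals norm_num
  · refine le_of_le_of_eq hw' ?_
    rw [psiW1, if_neg (by linarith), if_pos (by linarith)]
    all_goals norm_num

theorem good_band2 {p w : ℝ} (h0 : (1 / 10 : ℝ) < p) (h1 : p ≤ (3 / 20 : ℝ)) (hw : psiW0 p ≤ w)
    (hw' : w ≤ psiW1 p) : Good p w := by
  refine tree2.sound 1000000 1500000 0 7070000 band2 ?_ ?_ <;> rw [mem_Icc] <;> refine ⟨?_, ?_⟩ <;>
    norm_num [r, scale]
  · linarith
  · linarith
  · refine le_of_eq_of_le ?_ hw
    rw [psiW0, if_pos (by linarith)]
    all_goals norm_num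
  · refine le_of_le_of_eq hw' ?_
    rw [psiW1, if_neg (by linarith), if_neg (by linarith), if_pos (by linarith)]
    all_goals norm_num

theorem good_band3 {p w : ℝ} (h0 : (3 / 20 : ℝ) < p) (h1 : p ≤ (1 / 5 : ℝ)) (hw : psiW0 p ≤ w)
    (hw' : w ≤ psiW1 p) : Good p w := by
  refine tree3.sound 1500000 2000000 0 6480000 band3 ?_ ?_ <;> rw [mem_Icc] <;> refine ⟨?_, ?_⟩ <;>
    norm_num [r, scale]
  · linarith
  · linarith
  · refine le_of_eq_of_le ?_ hw
    rw [psiW0, if_pos (by linarith)]
    all_goals norm_num
  · refine le_of_le_of_eq hw' ?_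
    rw [psiW1, if_neg (by linarith), if_neg (by linarith), if_neg (by linarith),
      if_pos (by linarith)]
    all_goals norm_num

theorem good_band4 {p w : ℝ} (h0 : (1 / 5 : ℝ) < p) (h1 : p ≤ (1 / 4 : ℝ)) (hw : psiW0 p ≤ w)
    (hw' : w ≤ psiW1 p) : Good p w := by
  refine tree4.sound 2000000 2500000 0 5740000 band4 ?_ ?_ <;> rw [mem_Icc] <;> refine ⟨?_, ?_⟩ <;>
    norm_num [r, scale]
  · linarith
  · linarith
  · refine le_of_eq_of_le ?_ hw
    rw [psiW0, if_pos (by linarith)]
    all_goals norm_num
  · refine le_of_le_of_eq hw' ?_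
    rw [psiW1, if_neg (by linarith), if_neg (by linarith), if_neg (by linarith),
      if_neg (by linarith), if_pos (by linarith)]
    all_goals norm_num

theorem good_band5 {p w : ℝ} (h0 : (1 / 4 : ℝ) < p) (h1 : p ≤ (3 / 10 : ℝ)) (hw : psiW0 p ≤ w)
    (hw' : w ≤ psiW1 p) : Good p w := by
  refine tree5.sound 2500000 3000000 0 5000000 band5 ?_ ?_ <;> rw [mem_Icc] <;> refine ⟨?_, ?_⟩ <;>
    norm_num [r, scale]
  · linarith
  · linarith
  · refine le_of_eq_of_le ?_ hw
    rw [psiW0, if_pos (by linarith)]
    all_goals norm_num
  · refine le_of_le_of_eq hw' ?_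
    rw [psiW1, if_neg (by linarith), if_neg (by linarith), if_neg (by linarith),
      if_neg (by linarith), if_neg (by linarith), if_pos (by linarith)]
    all_goals norm_num

theorem good_band6 {p w : ℝ} (h0 : (3 / 10 : ℝ) < p) (h1 : p ≤ (343 / 1000 : ℝ)) (hw : psiW0 p ≤ w)
    (hw' : w ≤ psiW1 p) : Good p w := by
  refine tree6.sound 3000000 3430000 0 4350000 band6 ?_ ?_ <;> rw [mem_Icc] <;> refine ⟨?_, ?_⟩ <;>
    norm_num [r, scale]
  · linarith
  · linarith
  · refine le_of_eq_of_le ?_ hw
    rw [psiW0, if_pos (by linarith)]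
    all_goals norm_num
  · refine le_of_le_of_eq hw' ?_
    rw [psiW1, if_neg (by linarith), if_neg (by linarith), if_neg (by linarith),
      if_neg (by linarith), if_neg (by linarith), if_neg (by linarith),
      if_pos (by linarith)]
    all_goals norm_num

theorem good_band7 {p w : ℝ} (h0 : (343 / 1000 : ℝ) < p) (h1 : p ≤ (7 / 20 : ℝ)) (hw : psiW0 p ≤ w)
    (hw' : w ≤ psiW1 p) : Good p w := by
  refine tree7.sound 3430000 3500000 27000 4280000 band7 ?_ ?_ <;> rw [mem_Icc] <;> refine ⟨?_, ?_⟩ <;>
    norm_num [r, scale]
  · linarith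
  · linarith
  · refine le_of_eq_of_le ?_ hw
    rw [psiW0, if_neg (by linarith), if_pos (by linarith)]
    all_goals norm_num
  · refine le_of_le_of_eq hw' ?_
    rw [psiW1, if_neg (by linarith), if_neg (by linarith), if_neg (by linarith),
      if_neg (by linarith), if_neg (by linarith), if_neg (by linarith),
      if_neg (by linarith), if_pos (by linarith)]
    all_goals norm_num

theorem good_band8 {p w : ℝ} (h0 : (7 / 20 : ℝ) < p) (h1 : p ≤ (71 / 200 : ℝ)) (hw : psiW0 p ≤ w)
    (hw' : w ≤ psiW1 p) : Good p w := by
  refine tree8.sound 3500000 3550000 27000 4225000 band8 ?_ ?_ <;> rw [mem_Icc] <;> refine ⟨?_, ?_⟩ <;>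
    norm_num [r, scale]
  · linarith
  · linarith
  · refine le_of_eq_of_le ?_ hw
    rw [psiW0, if_neg (by linarith), if_pos (by linarith)]
    all_goals norm_num
  · refine le_of_le_of_eq hw' ?_
    rw [psiW1, if_neg (by linarith), if_neg (by linarith), if_neg (by linarith),
      if_neg (by linarith), if_neg (by linarith), if_neg (by linarith),
      if_neg (by linarith), if_neg (by linarith), if_pos (by linarith)]
    all_goals norm_num

theorem good_band9 {p w : ℝ} (h0 : (71 / 200 : ℝ) < p) (h1 : p ≤ (9 / 25 : ℝ)) (hw : psiW0 p ≤ w)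
    (hw' : w ≤ psiW1 p) : Good p w := by
  refine tree9.sound 3550000 3600000 27000 4165000 band9 ?_ ?_ <;> rw [mem_Icc] <;> refine ⟨?_, ?_⟩ <;>
    norm_num [r, scale]
  · linarith
  · linarith
  · refine le_of_eq_of_le ?_ hw
    rw [psiW0, if_neg (by linarith), if_pos (by linarith)]
    all_goals norm_num
  · refine le_of_le_of_eq hw' ?_
    rw [psiW1, if_neg (by linarith), if_neg (by linarith), if_neg (by linarith),
      if_neg (by linarith), if_neg (by linarith), if_neg (by linarith),
      if_neg (by linarith), if_neg (by linarith), if_neg (by linarith),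
      if_pos (by linarith)]
    all_goals norm_num

theorem good_band10 {p w : ℝ} (h0 : (9 / 25 : ℝ) < p) (h1 : p ≤ (73 / 200 : ℝ)) (hw : psiW0 p ≤ w)
    (hw' : w ≤ psiW1 p) : Good p w := by
  refine tree10.sound 3600000 3650000 79000 4105000 band10 ?_ ?_ <;> rw [mem_Icc] <;> refine ⟨?_, ?_⟩ <;>
    norm_num [r, scale]
  · linarith
  · linarith
  · refine le_of_eq_of_le ?_ hw
    rw [psiW0, if_neg (by linarith), if_neg (by linarith), if_pos (by linarith)]
    all_goals norm_num
  · refine le_of_le_of_eq hw' ?_
    rw [psiW1, if_neg (by linarith), if_neg (by linarith), if_neg (by linarith),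
      if_neg (by linarith), if_neg (by linarith), if_neg (by linarith),
      if_neg (by linarith), if_neg (by linarith), if_neg (by linarith),
      if_neg (by linarith), if_pos (by linarith)]
    all_goals norm_num

theorem good_band11 {p w : ℝ} (h0 : (73 / 200 : ℝ) < p) (h1 : p ≤ (37 / 100 : ℝ)) (hw : psiW0 p ≤ w)
    (hw' : w ≤ psiW1 p) : Good p w := by
  refine tree11.sound 3650000 3700000 79000 4055000 band11 ?_ ?_ <;> rw [mem_Icc] <;> refine ⟨?_, ?_⟩ <;>
    norm_num [r, scale]
  · linarith
  · linarith
  · refine le_of_eq_of_le ?_ hw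
    rw [psiW0, if_neg (by linarith), if_neg (by linarith), if_pos (by linarith)]
    all_goals norm_num
  · refine le_of_le_of_eq hw' ?_
    rw [psiW1, if_neg (by linarith), if_neg (by linarith), if_neg (by linarith),
      if_neg (by linarith), if_neg (by linarith), if_neg (by linarith),
      if_neg (by linarith), if_neg (by linarith), if_neg (by linarith),
      if_neg (by linarith), if_neg (by linarith), if_pos (by linarith)]
    all_goals norm_num

theorem good_band12 {p w : ℝ} (h0 : (37 / 100 : ℝ) < p) (h1 : p ≤ (3 / 8 : ℝ)) (hw : psiW0 p ≤ w)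
    (hw' : w ≤ psiW1 p) : Good p w := by
  refine tree12.sound 3700000 3750000 79000 4005000 band12 ?_ ?_ <;> rw [mem_Icc] <;> refine ⟨?_, ?_⟩ <;>
    norm_num [r, scale]
  · linarith
  · linarith
  · refine le_of_eq_of_le ?_ hw
    rw [psiW0, if_neg (by linarith), if_neg (by linarith), if_pos (by linarith)]
    all_goals norm_num
  · refine le_of_le_of_eq hw' ?_
    rw [psiW1, if_neg (by linarith), if_neg (by linarith), if_neg (by linarith),
      if_neg (by linarith), if_neg (by linarith), if_neg (by linarith),
      if_neg (by linarith), if_neg (by linarith), if_neg (by linarith),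
      if_neg (by linarith), if_neg (by linarith), if_neg (by linarith),
      if_pos (by linarith)]
    all_goals norm_num

theorem good_band13 {p w : ℝ} (h0 : (3 / 8 : ℝ) < p) (h1 : p ≤ (19 / 50 : ℝ)) (hw : psiW0 p ≤ w)
    (hw' : w ≤ psiW1 p) : Good p w := by
  refine tree13.sound 3750000 3800000 79000 3960000 band13 ?_ ?_ <;> rw [mem_Icc] <;> refine ⟨?_, ?_⟩ <;>
    norm_num [r, scale]
  · linarith
  · linarith
  · refine le_of_eq_of_le ?_ hw
    rw [psiW0, if_neg (by linarith), if_neg (by linarith), if_pos (by linarith)]
    all_goals norm_num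
  · refine le_of_le_of_eq hw' ?_
    rw [psiW1, if_neg (by linarith), if_neg (by linarith), if_neg (by linarith),
      if_neg (by linarith), if_neg (by linarith), if_neg (by linarith),
      if_neg (by linarith), if_neg (by linarith), if_neg (by linarith),
      if_neg (by linarith), if_neg (by linarith), if_neg (by linarith),
      if_neg (by linarith), if_pos (by linarith)]
    all_goals norm_num

theorem good_band14 {p w : ℝ} (h0 : (19 / 50 : ℝ) < p) (h1 : p ≤ (2 / 5 : ℝ)) (hw : psiW0 p ≤ w)
    (hw' : w ≤ psiW1 p) : Good p w := by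
  refine tree14.sound 3800000 4000000 79000 3800000 band14 ?_ ?_ <;> rw [mem_Icc] <;> refine ⟨?_, ?_⟩ <;>
    norm_num [r, scale]
  · linarith
  · linarith
  · refine le_of_eq_of_le ?_ hw
    rw [psiW0, if_neg (by linarith), if_neg (by linarith), if_pos (by linarith)]
    all_goals norm_num
  · refine le_of_le_of_eq hw' ?_
    rw [psiW1, if_neg (by linarith), if_neg (by linarith), if_neg (by linarith),
      if_neg (by linarith), if_neg (by linarith), if_neg (by linarith),
      if_neg (by linarith), if_neg (by linarith), if_neg (by linarith),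
      if_neg (by linarith), if_neg (by linarith), if_neg (by linarith),
      if_neg (by linarith), if_neg (by linarith), if_pos (by linarith)]
    all_goals norm_num

theorem good_band15 {p w : ℝ} (h0 : (2 / 5 : ℝ) < p) (h1 : p ≤ (11 / 25 : ℝ)) (hw : psiW0 p ≤ w)
    (hw' : w ≤ psiW1 p) : Good p w := by
  refine tree15.sound 4000000 4400000 101000 3800000 band15 ?_ ?_ <;> rw [mem_Icc] <;> refine ⟨?_, ?_⟩ <;>
    norm_num [r, scale]
  · linarith
  · linarith
  · refine le_of_eq_of_le ?_ hw
    rw [psiW0, if_neg (by linarith), if_neg (by linarith), if_neg (by linarith),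
      if_pos (by linarith)]
    all_goals norm_num
  · refine le_of_le_of_eq hw' ?_
    rw [psiW1, if_neg (by linarith), if_neg (by linarith), if_neg (by linarith),
      if_neg (by linarith), if_neg (by linarith), if_neg (by linarith),
      if_neg (by linarith), if_neg (by linarith), if_neg (by linarith),
      if_neg (by linarith), if_neg (by linarith), if_neg (by linarith),
      if_neg (by linarith), if_neg (by linarith), if_pos (by linarith)]
    all_goals norm_num

theorem good_band16 {p w : ℝ} (h0 : (11 / 25 : ℝ) < p) (h1 : p ≤ (9 / 20 : ℝ)) (hw : psiW0 p ≤ w)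
    (hw' : w ≤ psiW1 p) : Good p w := by
  refine tree16.sound 4400000 4500000 105000 3800000 band16 ?_ ?_ <;> rw [mem_Icc] <;> refine ⟨?_, ?_⟩ <;>
    norm_num [r, scale]
  · linarith
  · linarith
  · refine le_of_eq_of_le ?_ hw
    rw [psiW0, if_neg (by linarith), if_neg (by linarith), if_neg (by linarith),
      if_neg (by linarith), if_pos (by linarith)]
    all_goals norm_num
  · refine le_of_le_of_eq hw' ?_
    rw [psiW1, if_neg (by linarith), if_neg (by linarith), if_neg (by linarith),
      if_neg (by linarith), if_neg (by linarith), if_neg (by linarith),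
      if_neg (by linarith), if_neg (by linarith), if_neg (by linarith),
      if_neg (by linarith), if_neg (by linarith), if_neg (by linarith),
      if_neg (by linarith), if_neg (by linarith), if_pos (by linarith)]
    all_goals norm_num

theorem good_band17 {p w : ℝ} (h0 : (9 / 20 : ℝ) < p) (h1 : p ≤ (91 / 200 : ℝ)) (hw : psiW0 p ≤ w)
    (hw' : w ≤ psiW1 p) : Good p w := by
  refine tree17.sound 4500000 4550000 105000 4300000 band17 ?_ ?_ <;> rw [mem_Icc] <;> refine ⟨?_, ?_⟩ <;>
    norm_num [r, scale]
  · linarith
  · linarith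
  · refine le_of_eq_of_le ?_ hw
    rw [psiW0, if_neg (by linarith), if_neg (by linarith), if_neg (by linarith),
      if_neg (by linarith), if_pos (by linarith)]
    all_goals norm_num
  · refine le_of_le_of_eq hw' ?_
    rw [psiW1, if_neg (by linarith), if_neg (by linarith), if_neg (by linarith),
      if_neg (by linarith), if_neg (by linarith), if_neg (by linarith),
      if_neg (by linarith), if_neg (by linarith), if_neg (by linarith),
      if_neg (by linarith), if_neg (by linarith), if_neg (by linarith),
      if_neg (by linarith), if_neg (by linarith), if_neg (by linarith)]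
    all_goals norm_num

theorem good_band18 {p w : ℝ} (h0 : (91 / 200 : ℝ) < p) (h1 : p ≤ (23 / 50 : ℝ)) (hw : psiW0 p ≤ w)
    (hw' : w ≤ psiW1 p) : Good p w := by
  refine tree18.sound 4550000 4600000 127000 4300000 band18 ?_ ?_ <;> rw [mem_Icc] <;> refine ⟨?_, ?_⟩ <;>
    norm_num [r, scale]
  · linarith
  · linarith
  · refine le_of_eq_of_le ?_ hw
    rw [psiW0, if_neg (by linarith), if_neg (by linarith), if_neg (by linarith),
      if_neg (by linarith), if_neg (by linarith), if_pos (by linarith)]
    all_goals norm_num
  · refine le_of_le_of_eq hw' ?_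
    rw [psiW1, if_neg (by linarith), if_neg (by linarith), if_neg (by linarith),
      if_neg (by linarith), if_neg (by linarith), if_neg (by linarith),
      if_neg (by linarith), if_neg (by linarith), if_neg (by linarith),
      if_neg (by linarith), if_neg (by linarith), if_neg (by linarith),
      if_neg (by linarith), if_neg (by linarith), if_neg (by linarith)]
    all_goals norm_num

theorem good_band19 {p w : ℝ} (h0 : (23 / 50 : ℝ) < p) (h1 : p ≤ (93 / 200 : ℝ)) (hw : psiW0 p ≤ w)
    (hw' : w ≤ psiW1 p) : Good p w := by
  refine tree19.sound 4600000 4650000 172000 4300000 band19 ?_ ?_ <;> rw [mem_Icc] <;> refine ⟨?_, ?_⟩ <;>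
    norm_num [r, scale]
  · linarith
  · linarith
  · refine le_of_eq_of_le ?_ hw
    rw [psiW0, if_neg (by linarith), if_neg (by linarith), if_neg (by linarith),
      if_neg (by linarith), if_neg (by linarith), if_neg (by linarith),
      if_pos (by linarith)]
    all_goals norm_num
  · refine le_of_le_of_eq hw' ?_
    rw [psiW1, if_neg (by linarith), if_neg (by linarith), if_neg (by linarith),
      if_neg (by linarith), if_neg (by linarith), if_neg (by linarith),
      if_neg (by linarith), if_neg (by linarith), if_neg (by linarith),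
      if_neg (by linarith), if_neg (by linarith), if_neg (by linarith),
      if_neg (by linarith), if_neg (by linarith), if_neg (by linarith)]
    all_goals norm_num

theorem good_band20 {p w : ℝ} (h0 : (93 / 200 : ℝ) < p) (h1 : p ≤ (47 / 100 : ℝ)) (hw : psiW0 p ≤ w)
    (hw' : w ≤ psiW1 p) : Good p w := by
  refine tree20.sound 4650000 4700000 212000 4300000 band20 ?_ ?_ <;> rw [mem_Icc] <;> refine ⟨?_, ?_⟩ <;>
    norm_num [r, scale]
  · linarith
  · linarith
  · refine le_of_eq_of_le ?_ hw
    rw [psiW0, if_neg (by linarith), if_neg (by linarith), if_neg (by linarith),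
      if_neg (by linarith), if_neg (by linarith), if_neg (by linarith),
      if_neg (by linarith), if_pos (by linarith)]
    all_goals norm_num
  · refine le_of_le_of_eq hw' ?_
    rw [psiW1, if_neg (by linarith), if_neg (by linarith), if_neg (by linarith),
      if_neg (by linarith), if_neg (by linarith), if_neg (by linarith),
      if_neg (by linarith), if_neg (by linarith), if_neg (by linarith),
      if_neg (by linarith), if_neg (by linarith), if_neg (by linarith),
      if_neg (by linarith), if_neg (by linarith), if_neg (by linarith)]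
    all_goals norm_num

theorem good_band21 {p w : ℝ} (h0 : (47 / 100 : ℝ) < p) (h1 : p ≤ (189 / 400 : ℝ)) (hw : psiW0 p ≤ w)
    (hw' : w ≤ psiW1 p) : Good p w := by
  refine tree21.sound 4700000 4725000 230000 4300000 band21 ?_ ?_ <;> rw [mem_Icc] <;> refine ⟨?_, ?_⟩ <;>
    norm_num [r, scale]
  · linarith
  · linarith
  · refine le_of_eq_of_le ?_ hw
    rw [psiW0, if_neg (by linarith), if_neg (by linarith), if_neg (by linarith),
      if_neg (by linarith), if_neg (by linarith), if_neg (by linarith),
      if_neg (by linarith), if_neg (by linarith), if_pos (by linarith)]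
    all_goals norm_num
  · refine le_of_le_of_eq hw' ?_
    rw [psiW1, if_neg (by linarith), if_neg (by linarith), if_neg (by linarith),
      if_neg (by linarith), if_neg (by linarith), if_neg (by linarith),
      if_neg (by linarith), if_neg (by linarith), if_neg (by linarith),
      if_neg (by linarith), if_neg (by linarith), if_neg (by linarith),
      if_neg (by linarith), if_neg (by linarith), if_neg (by linarith)]
    all_goals norm_num

theorem good_band22 {p w : ℝ} (h0 : (189 / 400 : ℝ) < p) (h1 : p ≤ (19 / 40 : ℝ)) (hw : psiW0 p ≤ w)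
    (hw' : w ≤ psiW1 p) : Good p w := by
  refine tree22.sound 4725000 4750000 245000 4300000 band22 ?_ ?_ <;> rw [mem_Icc] <;> refine ⟨?_, ?_⟩ <;>
    norm_num [r, scale]
  · linarith
  · linarith
  · refine le_of_eq_of_le ?_ hw
    rw [psiW0, if_neg (by linarith), if_neg (by linarith), if_neg (by linarith),
      if_neg (by linarith), if_neg (by linarith), if_neg (by linarith),
      if_neg (by linarith), if_neg (by linarith), if_neg (by linarith),
      if_pos (by linarith)]
    all_goals norm_num
  · refine le_of_le_of_eq hw' ?_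
    rw [psiW1, if_neg (by linarith), if_neg (by linarith), if_neg (by linarith),
      if_neg (by linarith), if_neg (by linarith), if_neg (by linarith),
      if_neg (by linarith), if_neg (by linarith), if_neg (by linarith),
      if_neg (by linarith), if_neg (by linarith), if_neg (by linarith),
      if_neg (by linarith), if_neg (by linarith), if_neg (by linarith)]
    all_goals norm_num

theorem good_band23 {p w : ℝ} (h0 : (19 / 40 : ℝ) < p) (h1 : p ≤ (191 / 400 : ℝ)) (hw : psiW0 p ≤ w)
    (hw' : w ≤ psiW1 p) : Good p w := by
  refine tree23.sound 4750000 4775000 259000 4300000 band23 ?_ ?_ <;> rw [mem_Icc] <;> refine ⟨?_, ?_⟩ <;>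
    norm_num [r, scale]
  · linarith
  · linarith
  · refine le_of_eq_of_le ?_ hw
    rw [psiW0, if_neg (by linarith), if_neg (by linarith), if_neg (by linarith),
      if_neg (by linarith), if_neg (by linarith), if_neg (by linarith),
      if_neg (by linarith), if_neg (by linarith), if_neg (by linarith),
      if_neg (by linarith), if_pos (by linarith)]
    all_goals norm_num
  · refine le_of_le_of_eq hw' ?_
    rw [psiW1, if_neg (by linarith), if_neg (by linarith), if_neg (by linarith),
      if_neg (by linarith), if_neg (by linarith), if_neg (by linarith),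
      if_neg (by linarith), if_neg (by linarith), if_neg (by linarith),
      if_neg (by linarith), if_neg (by linarith), if_neg (by linarith),
      if_neg (by linarith), if_neg (by linarith), if_neg (by linarith)]
    all_goals norm_num

theorem good_band24 {p w : ℝ} (h0 : (191 / 400 : ℝ) < p) (h1 : p ≤ (12 / 25 : ℝ)) (hw : psiW0 p ≤ w)
    (hw' : w ≤ psiW1 p) : Good p w := by
  refine tree24.sound 4775000 4800000 273000 4300000 band24 ?_ ?_ <;> rw [mem_Icc] <;> refine ⟨?_, ?_⟩ <;>
    norm_num [r, scale]
  · linarith
  · linarith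
  · refine le_of_eq_of_le ?_ hw
    rw [psiW0, if_neg (by linarith), if_neg (by linarith), if_neg (by linarith),
      if_neg (by linarith), if_neg (by linarith), if_neg (by linarith),
      if_neg (by linarith), if_neg (by linarith), if_neg (by linarith),
      if_neg (by linarith), if_neg (by linarith), if_pos (by linarith)]
    all_goals norm_num
  · refine le_of_le_of_eq hw' ?_
    rw [psiW1, if_neg (by linarith), if_neg (by linarith), if_neg (by linarith),
      if_neg (by linarith), if_neg (by linarith), if_neg (by linarith),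
      if_neg (by linarith), if_neg (by linarith), if_neg (by linarith),
      if_neg (by linarith), if_neg (by linarith), if_neg (by linarith),
      if_neg (by linarith), if_neg (by linarith), if_neg (by linarith)]
    all_goals norm_num

theorem good_band25 {p w : ℝ} (h0 : (12 / 25 : ℝ) < p) (h1 : p ≤ (97 / 200 : ℝ)) (hw : psiW0 p ≤ w)
    (hw' : w ≤ psiW1 p) : Good p w := by
  refine tree25.sound 4800000 4850000 295000 4300000 band25 ?_ ?_ <;> rw [mem_Icc] <;> refine ⟨?_, ?_⟩ <;>
    norm_num [r, scale]
  · linarith
  · linarith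
  · refine le_of_eq_of_le ?_ hw
    rw [psiW0, if_neg (by linarith), if_neg (by linarith), if_neg (by linarith),
      if_neg (by linarith), if_neg (by linarith), if_neg (by linarith),
      if_neg (by linarith), if_neg (by linarith), if_neg (by linarith),
      if_neg (by linarith), if_neg (by linarith), if_neg (by linarith),
      if_pos (by linarith)]
    all_goals norm_num
  · refine le_of_le_of_eq hw' ?_
    rw [psiW1, if_neg (by linarith), if_neg (by linarith), if_neg (by linarith),
      if_neg (by linarith), if_neg (by linarith), if_neg (by linarith),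
      if_neg (by linarith), if_neg (by linarith), if_neg (by linarith),
      if_neg (by linarith), if_neg (by linarith), if_neg (by linarith),
      if_neg (by linarith), if_neg (by linarith), if_neg (by linarith)]
    all_goals norm_num

theorem good_band26 {p w : ℝ} (h0 : (97 / 200 : ℝ) < p) (h1 : p ≤ (49 / 100 : ℝ)) (hw : psiW0 p ≤ w)
    (hw' : w ≤ psiW1 p) : Good p w := by
  refine tree26.sound 4850000 4900000 310000 4300000 band26 ?_ ?_ <;> rw [mem_Icc] <;> refine ⟨?_, ?_⟩ <;>
    norm_num [r, scale]
  · linarith
  · linarith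
  · refine le_of_eq_of_le ?_ hw
    rw [psiW0, if_neg (by linarith), if_neg (by linarith), if_neg (by linarith),
      if_neg (by linarith), if_neg (by linarith), if_neg (by linarith),
      if_neg (by linarith), if_neg (by linarith), if_neg (by linarith),
      if_neg (by linarith), if_neg (by linarith), if_neg (by linarith),
      if_neg (by linarith), if_pos (by linarith)]
    all_goals norm_num
  · refine le_of_le_of_eq hw' ?_
    rw [psiW1, if_neg (by linarith), if_neg (by linarith), if_neg (by linarith),
      if_neg (by linarith), if_neg (by linarith), if_neg (by linarith),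
      if_neg (by linarith), if_neg (by linarith), if_neg (by linarith),
      if_neg (by linarith), if_neg (by linarith), if_neg (by linarith),
      if_neg (by linarith), if_neg (by linarith), if_neg (by linarith)]
    all_goals norm_num

theorem good_band27 {p w : ℝ} (h0 : (49 / 100 : ℝ) < p) (h1 : p ≤ (1 / 2 : ℝ)) (hw : psiW0 p ≤ w)
    (hw' : w ≤ psiW1 p) : Good p w := by
  refine tree27.sound 4900000 5000000 316000 4300000 band27 ?_ ?_ <;> rw [mem_Icc] <;> refine ⟨?_, ?_⟩ <;>
    norm_num [r, scale]
  · linarith
  · linarith
  · refine le_of_eq_of_le ?_ hw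
    rw [psiW0, if_neg (by linarith), if_neg (by linarith), if_neg (by linarith),
      if_neg (by linarith), if_neg (by linarith), if_neg (by linarith),
      if_neg (by linarith), if_neg (by linarith), if_neg (by linarith),
      if_neg (by linarith), if_neg (by linarith), if_neg (by linarith),
      if_neg (by linarith), if_neg (by linarith)]
    all_goals norm_num
  · refine le_of_le_of_eq hw' ?_
    rw [psiW1, if_neg (by linarith), if_neg (by linarith), if_neg (by linarith),
      if_neg (by linarith), if_neg (by linarith), if_neg (by linarith),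
      if_neg (by linarith), if_neg (by linarith), if_neg (by linarith),
      if_neg (by linarith), if_neg (by linarith), if_neg (by linarith),
      if_neg (by linarith), if_neg (by linarith), if_neg (by linarith)]
    all_goals norm_num

/-- **The endpoint function is positive on the range of `psi_pos`.** -/
theorem psiPos : PsiPos := by
  intro p w hp0 hp1 hw hw' hne
  rcases le_or_gt p (1 / 50) with h | h
  · exact good_small_psiW1 hp0 h (le_trans (psiW0_nonneg p) hw) hw' hne
  rcases le_or_gt p (1 / 20 : ℝ) with h0 | h0
  · exact good_band0 (by linarith) h0 hw hw'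
  rcases le_or_gt p (1 / 10 : ℝ) with h1 | h1
  · exact good_band1 (by linarith) h1 hw hw'
  rcases le_or_gt p (3 / 20 : ℝ) with h2 | h2
  · exact good_band2 (by linarith) h2 hw hw'
  rcases le_or_gt p (1 / 5 : ℝ) with h3 | h3
  · exact good_band3 (by linarith) h3 hw hw'
  rcases le_or_gt p (1 / 4 : ℝ) with h4 | h4
  · exact good_band4 (by linarith) h4 hw hw'
  rcases le_or_gt p (3 / 10 : ℝ) with h5 | h5
  · exact good_band5 (by linarith) h5 hw hw'
  rcases le_or_gt p (343 / 1000 : ℝ) with h6 | h6
  · exact good_band6 (by linarith) h6 hw hw'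
  rcases le_or_gt p (7 / 20 : ℝ) with h7 | h7
  · exact good_band7 (by linarith) h7 hw hw'
  rcases le_or_gt p (71 / 200 : ℝ) with h8 | h8
  · exact good_band8 (by linarith) h8 hw hw'
  rcases le_or_gt p (9 / 25 : ℝ) with h9 | h9
  · exact good_band9 (by linarith) h9 hw hw'
  rcases le_or_gt p (73 / 200 : ℝ) with h10 | h10
  · exact good_band10 (by linarith) h10 hw hw'
  rcases le_or_gt p (37 / 100 : ℝ) with h11 | h11
  · exact good_band11 (by linarith) h11 hw hw'
  rcases le_or_gt p (3 / 8 : ℝ) with h12 | h12
  · exact good_band12 (by linarith) h12 hw hw'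
  rcases le_or_gt p (19 / 50 : ℝ) with h13 | h13
  · exact good_band13 (by linarith) h13 hw hw'
  rcases le_or_gt p (2 / 5 : ℝ) with h14 | h14
  · exact good_band14 (by linarith) h14 hw hw'
  rcases le_or_gt p (11 / 25 : ℝ) with h15 | h15
  · exact good_band15 (by linarith) h15 hw hw'
  rcases le_or_gt p (9 / 20 : ℝ) with h16 | h16
  · exact good_band16 (by linarith) h16 hw hw'
  rcases le_or_gt p (91 / 200 : ℝ) with h17 | h17
  · exact good_band17 (by linarith) h17 hw hw'
  rcases le_or_gt p (23 / 50 : ℝ) with h18 | h18
  · exact good_band18 (by linarith) h18 hw hw'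
  rcases le_or_gt p (93 / 200 : ℝ) with h19 | h19
  · exact good_band19 (by linarith) h19 hw hw'
  rcases le_or_gt p (47 / 100 : ℝ) with h20 | h20
  · exact good_band20 (by linarith) h20 hw hw'
  rcases le_or_gt p (189 / 400 : ℝ) with h21 | h21
  · exact good_band21 (by linarith) h21 hw hw'
  rcases le_or_gt p (19 / 40 : ℝ) with h22 | h22
  · exact good_band22 (by linarith) h22 hw hw'
  rcases le_or_gt p (191 / 400 : ℝ) with h23 | h23
  · exact good_band23 (by linarith) h23 hw hw'
  rcases le_or_gt p (12 / 25 : ℝ) with h24 | h24
  · exact good_band24 (by linarith) h24 hw hw'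
  rcases le_or_gt p (97 / 200 : ℝ) with h25 | h25
  · exact good_band25 (by linarith) h25 hw hw'
  rcases le_or_gt p (49 / 100 : ℝ) with h26 | h26
  · exact good_band26 (by linarith) h26 hw hw'
  exact good_band27 (by linarith) (by linarith) hw hw'

end Vale.Agent.P232.Endpoint
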