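import Vale.Agent.P232.Endpoint.MainPsi
import Vale.Agent.P232.Endpoint.PsiAlt.Main

/-!
The endpoint bound.
-/

namespace Vale.Agent.P232

/-- **The endpoint bound.** -/
theorem endpointBound : EndpointBound :=
  Endpoint.endpointBound_of_psi Endpoint.psiPos

end Vale.Agent.P232
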